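import Vale.Agent.P193.Full.Calc.Maps.Defs

/-! Cones and the trivial-coefficient group: fresh cones, transitivity on configurations with
room, conjugation of transpositions. -/

namespace Vale.Agent.P193

theorem Apart.ext_left {v w : List Bool} (h : Apart v w) (r : List Bool) : Apart (v ++ r) w := by
  simpa using h.append r []

theorem Apart.ext_right {v w : List Bool} (h : Apart v w) (r : List Bool) : Apart v (w ++ r) := by
  simpa using h.append [] r

theorem Apart.of_prefix {v w v' w' : List Bool} (h : Apart v w) (hv : v <+: v') (hw : w <+: w') :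
    Apart v' w' := by
  obtain ⟨r, rfl⟩ := hv
  obtain ⟨r', rfl⟩ := hw
  exact h.append r r'

theorem Apart.ne {v w : List Bool} (h : Apart v w) : v ≠ w := fun e => h.1 (e ▸ List.prefix_rfl)

namespace Calc

open Classical
open scoped commutatorElement

variable {S : Type}

theorem not_apart_self (v : List Bool) : ¬ Apart v v := fun h => h.ne rfl

theorem apart_append_left {z a b : List Bool} (h : Apart a b) : Apart (z ++ a) (z ++ b) :=
  ⟨fun e => h.1 ((List.prefix_append_right_inj z).1 e),
    fun e => h.2 ((List.prefix_append_right_inj z).1 e)⟩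

/-- Two words of one length are apart unless equal. -/
theorem apart_of_len {v w : List Bool} (h : v.length = w.length) (hne : v ≠ w) : Apart v w :=
  ⟨fun e => hne (e.eq_of_length h), fun e => hne (e.eq_of_length h.symm).symm⟩

/-! ### Free lists -/

/-- Freeness passes to lists of smaller cones. -/
theorem Free.mono {L L' : List (List Bool)} (h : Free L)
    (hs : ∀ p ∈ L', ∃ q ∈ L, q <+: p) : Free L' := by
  obtain ⟨z, hz⟩ := h
  refine ⟨z, fun p hp => ?_⟩
  obtain ⟨q, hq, hqp⟩ := hs p hp
  exact (hz q hq).of_prefix List.prefix_rfl hqp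

theorem Free.sub {L L' : List (List Bool)} (h : Free L) (hs : L' ⊆ L) : Free L' :=
  h.mono fun p hp => ⟨p, hs hp, List.prefix_rfl⟩

/-- A fresh cone, still leaving room. -/
theorem Free.fresh {L : List (List Bool)} (h : Free L) :
    ∃ z, (∀ p ∈ L, Apart z p) ∧ Free (z :: L) := by
  obtain ⟨z, hz⟩ := h
  refine ⟨z ++ [false], fun p hp => (hz p hp).ext_left _, z ++ [true], fun p hp => ?_⟩
  rcases List.mem_cons.1 hp with rfl | hp
  · exact (apart_bits z).symm
  · exact (hz p hp).ext_left _

theorem spare_spec {L : List (List Bool)} (h : Free L) :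
    (∀ p ∈ L, Apart (spare L) p) ∧ Free (spare L :: L) := by
  rw [spare, dif_pos h]
  have hz := h.choose_spec
  refine ⟨fun p hp => (hz p hp).ext_left _, h.choose ++ [true], fun p hp => ?_⟩
  rcases List.mem_cons.1 hp with rfl | hp
  · exact (apart_bits _).symm
  · exact (hz p hp).ext_left _

/-- A value that does not change between two cones fitting together with `L` does not change
between any two cones fitting with `L`. -/
theorem free_connect {β : Type*} {L : List (List Bool)} (F : List Bool → β)
    (hstep : ∀ a b, Apart a b → (∀ p ∈ L, Apart a p) → (∀ p ∈ L, Apart b p) →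
      Free (a :: b :: L) → F a = F b)
    {a b : List Bool} (ha : ∀ p ∈ L, Apart a p) (hb : ∀ p ∈ L, Apart b p)
    (hfa : Free (a :: L)) (hfb : Free (b :: L)) : F a = F b := by
  obtain ⟨z, hz⟩ := hfa
  obtain ⟨y, hy⟩ := hfb
  simp only [List.mem_cons, forall_eq_or_imp] at hz hy
  obtain ⟨N, hN⟩ : ∃ N, N = z.length + y.length + 3 := ⟨_, rfl⟩
  let c := z ++ List.replicate (N - z.length) false
  let d := y ++ List.replicate (N - y.length) false
  have hc : c.length = N := by simp [c]; omega
  have hd : d.length = N := by simp [d]; omega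
  have e1 : F a = F c := by
    refine hstep a c (hz.1.symm.ext_right _) ha (fun p hp => (hz.2 p hp).ext_left _) ⟨z ++ [true], ?_⟩
    simp only [List.mem_cons, forall_eq_or_imp]
    refine ⟨hz.1.ext_left _, ?_, fun p hp => (hz.2 p hp).ext_left _⟩
    refine apart_append_left ?_
    rw [show N - z.length = (N - z.length - 1) + 1 by omega, List.replicate_succ]
    exact apart_heads (by decide) _ _
  have e2 : F b = F d := by
    refine hstep b d (hy.1.symm.ext_right _) hb (fun p hp => (hy.2 p hp).ext_left _) ⟨y ++ [true], ?_⟩
    simp only [List.mem_cons, forall_eq_or_imp]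
    refine ⟨hy.1.ext_left _, ?_, fun p hp => (hy.2 p hp).ext_left _⟩
    refine apart_append_left ?_
    rw [show N - y.length = (N - y.length - 1) + 1 by omega, List.replicate_succ]
    exact apart_heads (by decide) _ _
  have e3 : F c = F d := by
    by_cases hcd : c = d
    · rw [hcd]
    refine hstep c d (apart_of_len (hc.trans hd.symm) hcd) (fun p hp => (hz.2 p hp).ext_left _)
      (fun p hp => (hy.2 p hp).ext_left _) ?_
    let u₁ := z ++ true :: List.replicate (N - z.length - 1) false
    let u₂ := z ++ true :: List.replicate (N - z.length - 1) true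
    have h1 : u₁.length = N := by simp [u₁]; omega
    have h2 : u₂.length = N := by simp [u₂]; omega
    have hne : u₁ ≠ u₂ := by
      intro e
      have e' := (List.cons.inj (List.append_cancel_left e)).2
      obtain ⟨k, hk⟩ : ∃ k, N - z.length - 1 = k + 1 := ⟨N - z.length - 2, by omega⟩
      rw [hk, List.replicate_succ, List.replicate_succ] at e'
      exact Bool.noConfusion (List.cons.inj e').1
    have hcu : ∀ r, z ++ true :: r ≠ c := by
      intro r e
      rw [show c = z ++ List.replicate (N - z.length) false from rfl,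
        show N - z.length = (N - z.length - 1) + 1 by omega, List.replicate_succ] at e
      simp at e
    obtain ⟨u, hul, huc, hud, hzu⟩ : ∃ u, u.length = N ∧ u ≠ c ∧ u ≠ d ∧ z <+: u := by
      by_cases h : u₁ = d
      · exact ⟨u₂, h2, hcu _, fun e => hne (h.trans e.symm), List.prefix_append _ _⟩
      · exact ⟨u₁, h1, hcu _, h, List.prefix_append _ _⟩
    refine ⟨u, ?_⟩
    simp only [List.mem_cons, forall_eq_or_imp]
    exact ⟨apart_of_len (hul.trans hc.symm) huc, apart_of_len (hul.trans hd.symm) hud,
      fun p hp => (hz.2 p hp).of_prefix hzu List.prefix_rfl⟩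
  exact e1.trans (e3.trans e2.symm)

/-! ### Maps of cones -/

theorem MapsCone.append {p q : List Bool} {v : Vgrp S} (h : MapsCone p q v) (r : List Bool) :
    MapsCone (p ++ r) (q ++ r) v := fun x => by rw [pre_append, pre_append, h]

theorem MapsCone.trans {p q r : List Bool} {v w : Vgrp S} (h : MapsCone p q v)
    (h' : MapsCone q r w) : MapsCone p r (w * v) := fun x => by
  rw [Subgroup.coe_mul, Equiv.Perm.mul_apply, h, h']

theorem mapsCone_one (p : List Bool) : MapsCone p p (1 : Vgrp S) := fun _ => rfl

theorem fixCone_iff {p : List Bool} {v : Vgrp S} : FixCone p v ↔ MapsCone p p v := Iff.rfl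

theorem mapsCone_vswap {p q : List Bool} (h : Apart p q) : MapsCone p q (vswap (S := S) h) :=
  vswap_fwd h

theorem mapsCone_vswap' {p q : List Bool} (h : Apart p q) : MapsCone q p (vswap (S := S) h) :=
  vswap_bwd h

theorem fixCone_vswap {p q r : List Bool} (h : Apart p q) (hp : Apart r p) (hq : Apart r q) :
    FixCone r (vswap (S := S) h) := vswap_pre_off h hp hq

/-- Conjugating a transposition of cones. -/
theorem vswap_conj {p q p' q' : List Bool} {v : Vgrp S} (h : Apart p q) (h' : Apart p' q')
    (hp : MapsCone p p' v) (hq : MapsCone q q' v) : v * vswap h * v⁻¹ = vswap h' := by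
  refine Subtype.ext ?_
  rw [Subgroup.coe_mul, Subgroup.coe_mul, Subgroup.coe_inv]
  refine swap_conj _ _ _ ?_
  simp only [simpleBis, piece, Set.image_image]
  refine Set.image_congr ?_
  rintro ⟨x, y⟩ -
  exact Prod.ext (hp x).symm (hq y).symm

/-- An element fixing both cones commutes with their transposition. -/
theorem vswap_commute {p q : List Bool} {v : Vgrp S} (h : Apart p q) (hp : FixCone p v)
    (hq : FixCone q v) : Commute v (vswap h) := by
  have := vswap_conj h h hp hq
  exact mul_inv_eq_iff_eq_mul.1 this

theorem vswap_mul_self {p q : List Bool} (h : Apart p q) :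
    vswap (S := S) h * vswap h = 1 := by
  conv_lhs => arg 2; rw [← vswap_inv h]
  exact mul_inv_cancel _

/-- The code words of parking places. -/
def code (m : ℕ) : List Bool := List.replicate m true ++ [false]

theorem apart_code : ∀ {m k : ℕ}, m ≠ k → Apart (code m) (code k)
  | 0, 0, h => absurd rfl h
  | 0, _ + 1, _ => apart_heads (by decide) _ _
  | _ + 1, 0, _ => apart_heads (by decide) _ _
  | m + 1, k + 1, h => by
    have := apart_append_left (z := [true]) (apart_code (m := m) (k := k) fun e => h (by omega))
    simpa [code, List.replicate_succ] using this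

/-- Pairwise disjoint cones can be parked inside a cone disjoint from all of them. -/
theorem exists_park (z : List Bool) : ∀ (ps : List (List Bool)) (k : ℕ), ps.Pairwise Apart →
    (∀ p ∈ ps, Apart z p) → ∃ v : Vgrp S,
      (∀ j (hj : j < ps.length), MapsCone ps[j] (z ++ code (k + j)) v) ∧
      ∀ r, (∀ p ∈ ps, Apart r p) → (∀ m, k ≤ m → Apart r (z ++ code m)) → FixCone r v
  | [], k, _, _ =>
    ⟨1, fun j hj => absurd hj (by simp), fun r _ _ => mapsCone_one r⟩
  | p :: ps, k, hpw, hz => by
    rw [List.pairwise_cons] at hpw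
    obtain ⟨v, hv, hfix⟩ := exists_park z ps (k + 1) hpw.2 fun q hq =>
      hz q (List.mem_cons_of_mem _ hq)
    have hp : Apart p (z ++ code k) := ((hz p List.mem_cons_self).ext_left _).symm
    refine ⟨v * vswap hp, fun j hj => ?_, fun r hr hrz => ?_⟩
    · cases j with
      | zero =>
        refine (mapsCone_vswap hp).trans (hfix _ (fun q hq => ?_) fun m hm => ?_)
        · exact (hz q (List.mem_cons_of_mem _ hq)).ext_left _
        · exact apart_append_left (apart_code (by omega))
      | succ j =>
        have hj' : j < ps.length := by simpa using hj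
        have e : k + (j + 1) = k + 1 + j := by omega
        simp only [List.getElem_cons_succ, e]
        refine MapsCone.trans (fixCone_vswap hp ?_ ?_) (hv j hj')
        · exact (hpw.1 _ (List.getElem_mem hj')).symm
        · exact ((hz _ (List.mem_cons_of_mem _ (List.getElem_mem hj'))).ext_left _).symm
    · refine MapsCone.trans (fixCone_vswap hp (hr p List.mem_cons_self) (hrz k le_rfl))
        (hfix r (fun q hq => hr q (List.mem_cons_of_mem _ hq)) fun m hm => hrz m (by omega))

/-- Any two proper cones are carried onto each other. -/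
theorem exists_maps_one {z w : List Bool} (hz : z ≠ []) (hw : w ≠ []) :
    ∃ v : Vgrp S, MapsCone z w v := by
  by_cases h : Apart z w
  · exact ⟨_, mapsCone_vswap h⟩
  obtain ⟨y, hy⟩ : ∃ y, Apart z y ∧ Apart w y := by
    obtain ⟨c, r, rfl⟩ := List.exists_cons_of_ne_nil hz
    obtain ⟨d, r', rfl⟩ := List.exists_cons_of_ne_nil hw
    by_cases hcd : c = d
    · subst hcd
      exact ⟨[!c], apart_heads (by simp) _ _, apart_heads (by simp) _ _⟩
    · exact absurd (apart_heads hcd r r') h
  exact ⟨_, (mapsCone_vswap hy.1).trans (mapsCone_vswap' hy.2)⟩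

/-- The trivial-coefficient group is transitive on configurations with room. -/
theorem exists_maps {ps qs : List (List Bool)} (hl : ps.length = qs.length) (hp : Room ps)
    (hq : Room qs) : ∃ v : Vgrp S, ∀ j (hj : j < ps.length),
      MapsCone ps[j] (qs[j]'(hl ▸ hj)) v := by
  by_cases h0 : ps = []
  · exact ⟨1, fun j hj => absurd hj (by simp [h0])⟩
  obtain ⟨p, ps', rfl⟩ := List.exists_cons_of_ne_nil h0
  obtain ⟨q, qs', rfl⟩ := List.exists_cons_of_ne_nil
    (show qs ≠ [] by intro e; simp [e] at hl)
  obtain ⟨z, hz⟩ := hp.2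
  obtain ⟨w, hw⟩ := hq.2
  have hz0 : z ≠ [] := fun e => (hz p List.mem_cons_self).1 (e ▸ List.nil_prefix)
  have hw0 : w ≠ [] := fun e => (hw q List.mem_cons_self).1 (e ▸ List.nil_prefix)
  obtain ⟨u, hu⟩ := exists_maps_one (S := S) hz0 hw0
  obtain ⟨a, ha, -⟩ := exists_park (S := S) z _ 0 hp.1 hz
  obtain ⟨b, hb, -⟩ := exists_park (S := S) w _ 0 hq.1 hw
  exact ⟨b⁻¹ * (u * a), fun j hj =>
    (((ha j hj).trans (hu.append _)).trans (hb j (hl ▸ hj)).inv)⟩

end Calc

end Vale.Agent.P193
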