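import Vale.Agent.P193.Full.Calc.Maps.Chain

/-! The action of a generator on canonical elements of pieces: each endpoint moves by itself. -/

namespace Vale.Agent.P193.Calc

open Classical
open scoped commutatorElement

namespace Setup

variable {S : Type} {D : Setup S}
variable {p q t : List Bool} {e : Set S} {w : List D.ι} {i : D.ι}

/-- Every endpoint lies in its old cone or in a colour. -/
theorem EndMove.below {p' : List Bool} {e' : Set S} {u u' : List D.ι}
    (h : D.EndMove i p e p' e' u u') : p <+: p' ∨ colA <+: p' ∨ colB <+: p' := by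
  cases h with
  | fix => exact Or.inl List.prefix_rfl
  | toB a j => exact Or.inr (Or.inr (List.prefix_append _ _))
  | toA a j => exact Or.inr (Or.inl (List.prefix_append _ _))

variable (hb : D.Base)
include hb

/-- A generator is a placed one times placed ones at the neighbouring cones. -/
theorem gen_split (i : D.ι) (a : List Bool) : ∃ y : D.P,
    D.G i = D.place i (colA ++ a) (colB ++ a) * y ∧ ∀ x : D.P,
      (∀ b, Apart b a → Commute (D.place i (colA ++ b) (colB ++ b)) x) → Commute y x := by
  induction a using List.reverseRecOn with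
  | nil =>
    refine ⟨1, ?_, fun x _ => Commute.one_left x⟩
    rw [mul_one, List.append_nil, List.append_nil, place_cols hb]
  | append_singleton a c ih =>
    obtain ⟨y, hy, hc⟩ := ih
    refine ⟨D.place i (colA ++ (a ++ [!c])) (colB ++ (a ++ [!c])) * y, ?_, fun x hx => ?_⟩
    · have hA : Apart (colA ++ a) (colB ++ a) := colAB.append _ _
      have hf : Free [colA ++ a, colB ++ a] := free_cols.mono (by simp)
      have h := place_halve hb hA hf i
      have hcomm : Commute (D.place i (colA ++ a ++ [false]) (colB ++ a ++ [false]))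
          (D.place i (colA ++ a ++ [true]) (colB ++ a ++ [true])) :=
        place_place_comm hb (room_four (hA.append _ _) (apart_bits _) (hA.append _ _)
          (hA.symm.append _ _) (apart_bits _) (hA.append _ _) (free_cols.mono (by simp))) i i
      simp only [← List.append_assoc]
      rw [← mul_assoc, hy, h]
      cases c
      · rfl
      · show _ = D.place i (colA ++ a ++ [true]) (colB ++ a ++ [true]) *
          D.place i (colA ++ a ++ [false]) (colB ++ a ++ [false]) * y
        rw [hcomm.eq]
    · refine (hx _ ?_).mul_left (hc x fun b hb' => hx b (hb'.ext_right _))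
      exact apart_append_left (by cases c <;> exact apart_heads (by decide) _ _)

/-- A generator acts on what meets it in one pair of cones as that placed generator. -/
theorem gen_conj (a : List Bool) {x : D.P}
    (hx : ∀ b, Apart b a → Commute (D.place i (colA ++ b) (colB ++ b)) x) :
    D.G i * x * (D.G i)⁻¹ =
      D.place i (colA ++ a) (colB ++ a) * x * (D.place i (colA ++ a) (colB ++ a))⁻¹ := by
  obtain ⟨y, hy, hc⟩ := gen_split hb i a
  rw [hy, mul_inv_rev]
  calc _ = D.place i (colA ++ a) (colB ++ a) * (y * x) * y⁻¹ *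
        (D.place i (colA ++ a) (colB ++ a))⁻¹ := by group
    _ = _ := by rw [(hc x hx).eq]; group

/-- A fixed endpoint: the transposition at it commutes with the generator. -/
theorem fix_sw (hpt : Apart p t) (htA : Apart t colA) (htB : Apart t colB) (he : D.Def e)
    (h1 : Apart colA p ∨ (colA <+: p ∧ Disjoint e (gdom (D.g i))) ∨ colB <+: p)
    (h2 : Apart colB p ∨ (colB <+: p ∧ Disjoint e (gran (D.g i))) ∨ colA <+: p) :
    Commute (D.G i) (D.sw e p t) := by
  rw [← place_cols hb, sw_eq hpt]
  rcases h1 with hA | ⟨hpA, hd⟩ | hpB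
  · rcases h2 with hB | ⟨hpB, hd⟩ | hpA
    · exact place_comm_off hb colAB free_cols he (fixCone_vswap hpt hA htA.symm)
        (fixCone_vswap hpt hB htB.symm) i
    · exact place_comm_ran hb colAB free_cols he hd (fixCone_vswap hpt hA htA.symm)
    · exact absurd (hA.of_prefix hpA List.prefix_rfl) (not_apart_self p)
  · exact place_comm_dom hb colAB free_cols he hd
      (fixCone_vswap hpt (colAB.symm.of_prefix List.prefix_rfl hpA) htB.symm)
  · rcases h2 with hB | ⟨-, hd⟩ | hpA
    · exact absurd (hB.of_prefix hpB List.prefix_rfl) (not_apart_self p)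
    · exact place_comm_ran hb colAB free_cols he hd
        (fixCone_vswap hpt (colAB.of_prefix List.prefix_rfl hpB) htA.symm)
    · exact absurd (colAB.of_prefix hpA hpB) (not_apart_self p)

/-- The transposition at the source after a generator. -/
theorem conj_gen_src {p' : List Bool} {e' : Set S} {u u' : List D.ι} (hpt : Apart p t)
    (htA : Apart t colA) (htB : Apart t colB) (hf : Free [p, t, colA, colB]) (he : D.Def e)
    (h : D.EndMove i p e p' e' u u') :
    D.G i * D.sw e p t * (D.G i)⁻¹ = D.echain p' t e' u ∧
      D.wimg u e' = e ∧ D.Def e' ∧ D.WDef u e' ∧ (u = [] ∨ ∃ k, u = [k]) ∧ Apart p' t := by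
  cases h with
  | fix h1 h2 =>
    refine ⟨?_, rfl, he, trivial, Or.inl rfl, hpt⟩
    rw [(fix_sw hb hpt htA htB he h1 h2).eq, mul_inv_cancel_right, echain_nil]
  | toB a j ha hsub hj hG =>
    subst ha
    have hsub' : D.img i e ⊆ gdom (D.g j) := gdom_partner hj ▸ img_subset_ran i e
    have he' := def_img hb he i
    have hBt : Apart (colB ++ a) t := htB.symm.ext_left a
    refine ⟨?_, img_partner hj hsub, he', ⟨hsub', trivial⟩, Or.inr ⟨j, rfl⟩, hBt⟩
    rw [gen_conj hb a, echain_cons hb (w := []) (r := colA ++ a) hBt (colAB.append _ _) hpt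
      (hf.mono (by simp)) he' ⟨hsub', trivial⟩,
      echain_nil, img_partner hj hsub, place_partner hb hG (colAB.append _ _) (free_cols.mono (by simp))]
    intro b hba
    exact place_sw_comm hb he (colAB.append _ _) (free_cols.mono (by simp)) hpt
      (apart_append_left hba) (htA.symm.ext_left _) (colAB.symm.append _ _) (htB.symm.ext_left _) i
  | toA a j ha hsub hj hG =>
    subst ha
    have hj' : D.g i = ginv (D.g j) := by rw [hj]; rfl
    have hsub' : D.img j e ⊆ gdom (D.g i) := gran_partner hj ▸ img_subset_ran j e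
    have hsubj : e ⊆ gdom (D.g j) := (gdom_partner hj).symm ▸ hsub
    have he' := def_img hb he j
    have hAt : Apart (colA ++ a) t := htA.symm.ext_left a
    refine ⟨?_, img_partner hj' hsubj, he', ⟨hsub', trivial⟩, Or.inr ⟨i, rfl⟩, hAt⟩
    rw [gen_conj hb a, echain_cons hb (w := []) (r := colB ++ a) hAt (colAB.symm.append _ _) hpt
      (hf.mono (by simp)) he' ⟨hsub', trivial⟩,
      echain_nil, img_partner hj' hsubj]
    intro b hba
    exact place_sw_comm hb he (colAB.append _ _) (free_cols.mono (by simp)) hpt
      (colAB.append _ _) (htA.symm.ext_left _) (apart_append_left hba) (htB.symm.ext_left _) i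

/-- The chain at the target after a generator. -/
theorem conj_gen_tgt {q' : List Bool} {f : Set S} {v v' : List D.ι} (hqt : Apart t q)
    (htA : Apart t colA) (htB : Apart t colB) (hf : Free [t, q, colA, colB]) (he : D.Def e)
    (hwd : D.WDef w e) (h : D.EndMove i q (D.wimg w e) q' f v v') :
    D.G i * D.echain t q e w * (D.G i)⁻¹ = D.echain t q' e (w ++ v') ∧
      D.WDef (w ++ v') e ∧ Apart t q' := by
  cases h with
  | fix h1 h2 =>
    rw [List.append_nil]
    refine ⟨?_, hwd, hqt⟩
    obtain ⟨s, hs, hs'⟩ := hf.fresh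
    simp only [List.mem_cons, List.not_mem_nil, or_false, forall_eq_or_imp, forall_eq] at hs
    obtain ⟨hst, hsq, hsA, hsB⟩ := hs
    have c2 : Commute (D.G i) (D.echain t s e w) := by
      rw [← place_cols hb]
      exact (echain_comm_place hb hst.symm colAB htA htB hsA hsB (hs'.sub (by simp)) he hwd i).symm
    have c1 := fix_sw hb hsq.symm hsA hsB (def_wimg hb he w) h1 h2
    rw [← echain_tgt hb hst.symm hqt.symm hsq.symm (hs'.sub (by simp)) he hwd, sw_symm _ s q,
      ((c1.mul_right c2).mul_right c1).eq, mul_inv_cancel_right]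
  | toB a j ha hsub hj hG =>
    subst ha
    refine ⟨?_, (wdef_append w [i] e).2 ⟨hwd, hsub, trivial⟩, htB.ext_right a⟩
    rw [gen_conj hb a, echain_tgt_move hb hqt (htB.symm.ext_left a) (colAB.symm.append _ _)
      (hf.mono (by simp)) he hwd hsub]
    intro b hba
    exact (echain_comm_place hb hqt (colAB.append _ _) (htA.ext_right _) (htB.ext_right _)
      (apart_append_left hba.symm) (colAB.append _ _) (hf.mono (by simp)) he hwd i).symm
  | toA a j ha hsub hj hG =>
    subst ha
    have hsubj : D.wimg w e ⊆ gdom (D.g j) := (gdom_partner hj).symm ▸ hsub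
    refine ⟨?_, (wdef_append w [j] e).2 ⟨hwd, hsubj, trivial⟩, htA.ext_right a⟩
    rw [gen_conj hb a,
      ← place_partner hb hG (colAB.append a a) (free_cols.mono (by simp)),
      echain_tgt_move hb hqt (htA.symm.ext_left a) (colAB.append _ _) (hf.mono (by simp)) he hwd hsubj]
    intro b hba
    exact (echain_comm_place hb hqt (colAB.append _ _) (htA.ext_right _) (htB.ext_right _)
      (colAB.symm.append _ _) (apart_append_left hba.symm) (hf.mono (by simp)) he hwd i).symm

/-- The canonical element computed with any spare cone. -/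
theorem term_at (h : D.Ok p q e w) (htp : Apart t p) (htq : Apart t q) (hf : Free [t, p, q]) :
    D.term p q e w = D.sw e p t * D.echain t q e w * D.sw e p t := by
  obtain ⟨hs, hsf⟩ := spare_spec h.free
  show D.sw e p (spare [p, q]) * D.echain (spare [p, q]) q e w * (D.sw e p (spare [p, q]))⁻¹ = _
  rw [sw_inv]
  refine free_connect (L := [p, q]) (fun t => D.sw e p t * D.echain t q e w * D.sw e p t) ?_
    hs (by simp [htp, htq]) hsf hf
  intro a b hab ha hb' hfab
  simp only [List.mem_cons, List.not_mem_nil, or_false, forall_eq_or_imp, forall_eq] at ha hb'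
  show D.sw e p a * D.echain a q e w * D.sw e p a = D.sw e p b * D.echain b q e w * D.sw e p b
  have c : Commute (D.echain b q e w) (D.sw e p a) := by
    rcases h.disj with hpq | hd
    · exact echain_comm_sw hb hb'.2 ha.1.symm hb'.1 hab.symm hpq.symm ha.2.symm
        (hfab.sub (by simp)) h.df h.wdef h.df
    · exact echain_comm_sw_tgt hb hb'.2 ha.1.symm hb'.1 hab.symm (hfab.sub (by simp)) h.df h.wdef
        h.df hd
  have e1 := echain_src hb hb'.2 hab ha.2 (hfab.sub (by simp)) h.df h.wdef
  have e2 : D.sw e p a * D.sw e b a = D.sw e p b * D.sw e p a := by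
    rw [sw_symm e b a]
    have e3 := sw_move (D := D) (e := e) hab ha.1 hb'.1.symm
    rw [sw_symm e a p] at e3
    rw [← e3, mul_assoc, sw_sq, mul_one]
  have e2' : D.sw e b a * D.sw e p a = D.sw e p a * D.sw e p b := by
    have := congrArg (·⁻¹) e2
    simpa only [mul_inv_rev, sw_inv] using this
  rw [← e1]
  calc _ = (D.sw e p a * D.sw e b a) * D.echain b q e w * (D.sw e b a * D.sw e p a) := by group
    _ = (D.sw e p b * D.sw e p a) * D.echain b q e w * (D.sw e p a * D.sw e p b) := by rw [e2, e2']
    _ = D.sw e p b * (D.sw e p a * D.echain b q e w) * D.sw e p a * D.sw e p b := by group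
    _ = D.sw e p b * D.echain b q e w * (D.sw e p a * D.sw e p a) * D.sw e p b := by
        rw [← c.eq]; group
    _ = _ := by rw [sw_sq, mul_one]

/-- The action of a generator on a canonical element. -/
theorem conj_gen_term {p' q' : List Bool} {e' f : Set S} {u u' v v' : List D.ι}
    (ok : D.Ok p q e w) (hf : Free [p, q, colA, colB]) (hp : D.EndMove i p e p' e' u u')
    (hq : D.EndMove i q (D.wimg w e) q' f v v') (ok' : D.Ok p' q' e' (u ++ w ++ v')) :
    D.G i * D.term p q e w * (D.G i)⁻¹ = D.term p' q' e' (u ++ w ++ v') := by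
  obtain ⟨t, ht, h1⟩ := hf.fresh
  simp only [List.mem_cons, List.not_mem_nil, or_false, forall_eq_or_imp, forall_eq] at ht
  obtain ⟨htp, htq, htA, htB⟩ := ht
  obtain ⟨eX, eimg, he', hu, hlen, hpt'⟩ := conj_gen_src hb htp.symm htA htB (h1.sub (by simp)) ok.df hp
  obtain ⟨eZ, hwd', hqt'⟩ := conj_gen_tgt hb htq htA htB (h1.sub (by simp)) ok.df ok.wdef hq
  have hF : Free [t, p', q', colA, colB] := by
    refine h1.mono fun c hc => ?_
    simp only [List.mem_cons, List.not_mem_nil, or_false] at hc
    rcases hc with rfl | rfl | rfl | rfl | rfl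
    · exact ⟨_, by simp, List.prefix_rfl⟩
    · rcases hp.below with g | g | g <;> exact ⟨_, by simp, g⟩
    · rcases hq.below with g | g | g <;> exact ⟨_, by simp, g⟩
    · exact ⟨colA, by simp, List.prefix_rfl⟩
    · exact ⟨colB, by simp, List.prefix_rfl⟩
  rw [term_at hb ok htp htq (h1.sub (by simp))]
  have e0 : D.G i * (D.sw e p t * D.echain t q e w * D.sw e p t) * (D.G i)⁻¹ =
      D.echain p' t e' u * D.echain t q' e (w ++ v') * D.echain p' t e' u := by
    rw [← eX, ← eZ]
    group
  rw [e0]
  rcases hlen with rfl | ⟨k, rfl⟩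
  · obtain rfl : e' = e := eimg
    simp only [List.nil_append] at ok' ⊢
    rw [echain_nil, term_at hb ok' hpt'.symm hqt' (hF.sub (by simp))]
  obtain ⟨s, hs, h2⟩ := hF.fresh
  obtain ⟨z, hz, h3⟩ := h2.fresh
  simp only [List.mem_cons, List.not_mem_nil, or_false, forall_eq_or_imp, forall_eq] at hs hz
  obtain ⟨hst, hsp, hsq, -, -⟩ := hs
  obtain ⟨hzs, hzt, hzp, hzq, -, -⟩ := hz
  obtain rfl : D.img k e' = e := eimg
  have hkw : D.WDef (k :: (w ++ v')) e' := ⟨hu.1, hwd'⟩
  have eXb : D.place k s t * D.sw e' p' s * (D.place k s t)⁻¹ = D.echain p' t e' [k] := by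
    rw [← echain_nil]
    exact echain_tgt_move hb hsp.symm hpt'.symm hst.symm (h2.sub (by simp)) he' trivial hu.1
  have eZb := echain_cons hb (p := s) (q := q') (r := t) (i := k) (w := w ++ v') hsq hst.symm hqt'
    (h2.sub (by simp)) he' hkw
  have ct : Commute (D.place k s t) (D.term p' q' e' (k :: (w ++ v'))) := by
    have ok'' : D.Ok p' q' e' (k :: (w ++ v')) := by
      have := ok'
      rwa [List.append_assoc] at this
    rw [term_at hb ok'' hzp hzq (h3.sub (by simp))]
    have c1 : Commute (D.place k s t) (D.sw e' p' z) :=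
      place_sw_comm hb he' hst (h3.sub (by simp)) hzp.symm hsp hzs.symm hpt'.symm hzt.symm k
    have c2 : Commute (D.place k s t) (D.echain z q' e' (k :: (w ++ v'))) :=
      (echain_comm_place hb hzq hst hzs hzt hsq.symm hqt'.symm (h3.sub (by simp)) he' hkw k).symm
    exact (c1.mul_right c2).mul_right c1
  rw [place_inv hb] at eXb eZb
  calc D.echain p' t e' [k] * D.echain t q' (D.img k e') (w ++ v') * D.echain p' t e' [k]
      = D.place k s t * (D.sw e' p' s * (D.place k s t * D.echain t q' (D.img k e') (w ++ v') *
          D.place k s t) * D.sw e' p' s) * D.place k s t := by rw [← eXb]; group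
    _ = D.place k s t * D.term p' q' e' (k :: (w ++ v')) * D.place k s t := by
        rw [← eZb, term_at hb (t := s) (p := p') (q := q') (e := e') (w := k :: (w ++ v'))
          (by have := ok'; rwa [List.append_assoc] at this) hsp hsq (h2.sub (by simp))]
    _ = D.term p' q' e' (k :: (w ++ v')) := by rw [ct.eq, mul_assoc, place_sq hb, mul_one]
    _ = _ := by rw [List.append_assoc]; rfl

end Setup

end Vale.Agent.P193.Calc
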