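import Vale.Agent.P193.Full.Calc.Maps.Place

/-! The braid identity: a placed generator is the transported transposition of a spare cone, on
either side. Proof: both transports agree, and the quotient by the placed generator is constant
over configurations and equal to its own square. -/

namespace Vale.Agent.P193.Calc

open Classical
open scoped commutatorElement

theorem free_of_fresh {L : List (List Bool)} {z : List Bool} (h : Free (z :: L)) : Free L :=
  h.sub (List.subset_cons_self _ _)

namespace Setup

variable {S : Type} {D : Setup S}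

/-- The transported transposition from the source side. -/
noncomputable def srcTr (i : D.ι) (x y z : List Bool) : D.P :=
  D.place i z y * D.sw (gdom (D.g i)) z x * D.place i z y

/-- The transported transposition from the target side. -/
noncomputable def tgtTr (i : D.ι) (x y w : List Bool) : D.P :=
  D.place i x w * D.sw (gran (D.g i)) y w * D.place i x w

theorem mul_four_comm {K : Type*} [Group K] {a₀ a₁ s₀ s₁ : K} (h1 : Commute a₁ a₀)
    (h2 : Commute a₁ s₀) (h3 : Commute s₁ a₀) :
    a₀ * a₁ * (s₀ * s₁) * (a₀ * a₁) = (a₀ * s₀ * a₀) * (a₁ * s₁ * a₁) := by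
  calc a₀ * a₁ * (s₀ * s₁) * (a₀ * a₁) = a₀ * (a₁ * s₀) * (s₁ * a₀) * a₁ := by group
    _ = a₀ * s₀ * (a₁ * a₀) * s₁ * a₁ := by rw [h2.eq, h3.eq]; group
    _ = _ := by rw [h1.eq]; group

/-- The quotient of the transported transposition by the placed generator. -/
noncomputable def defect (i : D.ι) (x y z : List Bool) : D.P :=
  D.srcTr i x y z * D.place i x y

variable (hb : D.Base) {i : D.ι}
include hb

theorem src_eq_tgt {x y z w : List Bool} (hxy : Apart x y) (hzx : Apart z x) (hzy : Apart z y)
    (hwx : Apart w x) (hwy : Apart w y) (hzw : Apart z w) (hf : Free [z, x, y, w]) :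
    D.srcTr i x y z = D.tgtTr i x y w := by
  have h : Room [z, x, y, w] := room_four hzx hzy hzw hxy hwx.symm hwy.symm hf
  have key := cov2 hb (i := i) h (hb.dom i) subset_rfl
  rw [img_dom, mul_inv_rev, place_inv hb, place_inv hb] at key
  have c : Commute (D.place i z y) (D.place i x w) :=
    place_place_comm hb (room_four hzy hzx hzw hxy.symm hwy.symm hwx.symm (hf.sub (by simp))) i i
  have m : D.place i x w * D.place i z y * D.place i x w = D.place i z y := by
    rw [← c.eq, mul_assoc, place_sq hb, mul_one]
  rw [srcTr, tgtTr, ← key]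
  calc D.place i z y * D.sw (gdom (D.g i)) z x * D.place i z y
      = (D.place i x w * D.place i z y * D.place i x w) * D.sw (gdom (D.g i)) z x *
          (D.place i x w * D.place i z y * D.place i x w) := by rw [m]
    _ = _ := by group

/-- The transported transposition does not depend on its spare cone. -/
theorem srcTr_indep {x y z z' : List Bool} (hxy : Apart x y) (hzx : Apart z x) (hzy : Apart z y)
    (hzx' : Apart z' x) (hzy' : Apart z' y) (hf : Free [z, x, y]) (hf' : Free [z', x, y]) :
    D.srcTr i x y z = D.srcTr i x y z' := by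
  refine free_connect (L := [x, y]) (fun z => D.srcTr i x y z) ?_ (by simp [hzx, hzy])
    (by simp [hzx', hzy']) hf hf'
  intro a b _ ha hb' hfab
  obtain ⟨w, hw, hfw⟩ := hfab.fresh
  simp only [List.mem_cons, List.not_mem_nil, or_false, forall_eq_or_imp, forall_eq] at ha hb' hw
  show D.srcTr i x y a = D.srcTr i x y b
  rw [src_eq_tgt hb hxy ha.1 ha.2 hw.2.2.1 hw.2.2.2 hw.1.symm (hfw.sub (by simp)),
    src_eq_tgt hb hxy hb'.1 hb'.2 hw.2.2.1 hw.2.2.2 hw.2.1.symm (hfw.sub (by simp))]

theorem src_tgt {x y z w : List Bool} (hxy : Apart x y) (hzx : Apart z x) (hzy : Apart z y)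
    (hwx : Apart w x) (hwy : Apart w y) (hfz : Free [z, x, y]) (hfw : Free [w, x, y]) :
    D.srcTr i x y z = D.tgtTr i x y w := by
  obtain ⟨z', hz', hf'⟩ := hfw.fresh
  simp only [List.mem_cons, List.not_mem_nil, or_false, forall_eq_or_imp, forall_eq] at hz'
  rw [srcTr_indep hb hxy hzx hzy hz'.2.1 hz'.2.2 hfz (hf'.sub (by simp))]
  exact src_eq_tgt hb hxy hz'.2.1 hz'.2.2 hwx hwy hz'.1 (hf'.sub (by simp))

theorem srcTr_inv (x y z : List Bool) : (D.srcTr i x y z)⁻¹ = D.srcTr i x y z := by
  rw [srcTr, mul_inv_rev, mul_inv_rev, place_inv hb, sw_inv, mul_assoc]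

theorem defect_indep {x y z z' : List Bool} (hxy : Apart x y) (hzx : Apart z x) (hzy : Apart z y)
    (hzx' : Apart z' x) (hzy' : Apart z' y) (hf : Free [z, x, y]) (hf' : Free [z', x, y]) :
    D.defect i x y z = D.defect i x y z' := by
  rw [defect, defect, srcTr_indep hb hxy hzx hzy hzx' hzy' hf hf']

omit hb in
theorem conj_of_step {K : Type*} [Group K] {u t a b : K} (hu : u⁻¹ = u) (ht : t⁻¹ = t)
    (h1 : t * a * t = b) (h2 : u * b * u = a) : Commute (u * t) a := by
  have e : u * t * a * (u * t)⁻¹ = a := by
    rw [mul_inv_rev, hu, ht]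
    calc u * t * a * (t * u) = u * (t * a * t) * u := by group
      _ = a := by rw [h1, h2]
  exact mul_inv_eq_iff_eq_mul.1 e

omit hb in
theorem conj_three {K : Type*} [Group K] {p a b : K} (hp : p * p = 1) (hab : Commute p b) :
    p * a * p * b * (p * a * p) = p * (a * b * a) * p := by
  calc p * a * p * b * (p * a * p) = p * a * (p * b) * p * a * p := by group
    _ = p * a * b * (p * p) * a * p := by rw [hab.eq]; group
    _ = _ := by rw [hp]; group

/-- The defect does not change when the source cone moves. -/
theorem defect_move_src {x y w z : List Bool} (hxy : Apart x y) (hwx : Apart w x)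
    (hwy : Apart w y) (hz : Apart z x ∧ Apart z y ∧ Apart z w) (hf : Free [z, x, y, w]) :
    D.defect i x y z = D.defect i w y z := by
  obtain ⟨hzx, hzy, hzw⟩ := hz
  obtain ⟨c, hc, hfc⟩ := hf.fresh
  simp only [List.mem_cons, List.not_mem_nil, or_false, forall_eq_or_imp, forall_eq] at hc
  obtain ⟨hcz, hcx, hcy, hcw⟩ := hc
  let U := D.srcTr i x y z
  let t := D.place i x y
  have hU : U⁻¹ = U := srcTr_inv hb x y z
  have ht : t⁻¹ = t := place_inv hb i x y
  have hdef : D.Def (gdom (D.g i)) := hb.dom i
  -- the defect commutes with transported transpositions sharing the target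
  have k1 : ∀ w', Apart w' x → Apart w' y → ∀ z', Apart z' x → Apart z' y → Apart z' w' →
      Free [z', x, y, w'] → Commute (U * t) (D.srcTr i w' y z') := by
    intro w' h1 h2 z' g1 g2 g3 gf
    have e0 : D.srcTr i w' y z' = D.srcTr i w' y x :=
      srcTr_indep hb h2 g3 g2 h1.symm hxy (gf.sub (by simp)) (gf.sub (by simp))
    refine conj_of_step (b := D.sw (gdom (D.g i)) x w') hU ht ?_ ?_
    · rw [e0]
      show t * (t * _ * t) * t = _
      calc t * (t * D.sw (gdom (D.g i)) x w' * t) * t
          = (t * t) * D.sw (gdom (D.g i)) x w' * (t * t) := by group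
        _ = _ := by rw [place_sq hb]; group
    · rw [show U = D.srcTr i x y z' from
        srcTr_indep hb hxy hzx hzy g1 g2 (hf.sub (by simp)) (gf.sub (by simp))]
      show D.place i z' y * _ * D.place i z' y * _ * (D.place i z' y * _ * D.place i z' y) = _
      rw [conj_three (place_sq hb i z' y) (place_sw_comm hb hdef g2 (gf.sub (by simp)) h1.symm g1
        g3 hxy.symm h2.symm i), sw_symm _ z' x, sw_move h1.symm g1.symm g3]
      rfl
  -- and with those sharing the source
  have k2 : ∀ w', Apart w' x → Apart w' y → ∀ z', Apart z' x → Apart z' y → Apart z' w' →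
      Free [z', x, y, w'] → Commute (U * t) (D.srcTr i x w' z') := by
    intro w' h1 h2 z' g1 g2 g3 gf
    have hr : D.Def (gran (D.g i)) := hb.ran i
    have eU : U = D.tgtTr i x y z' :=
      src_tgt hb hxy hzx hzy g1 g2 (hf.sub (by simp)) (gf.sub (by simp))
    have e1 : D.srcTr i x w' z' = D.tgtTr i x w' y :=
      src_tgt hb h1.symm g1 g3 hxy.symm h2.symm (gf.sub (by simp)) (gf.sub (by simp))
    have e2 : D.srcTr i x w' z' = D.tgtTr i x w' z' :=
      src_tgt hb h1.symm g1 g3 g1 g3 (gf.sub (by simp)) (gf.sub (by simp))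
    refine conj_of_step (b := D.sw (gran (D.g i)) w' y) hU ht ?_ ?_
    · rw [e1]
      show t * (t * _ * t) * t = _
      calc t * (t * D.sw (gran (D.g i)) w' y * t) * t
          = (t * t) * D.sw (gran (D.g i)) w' y * (t * t) := by group
        _ = _ := by rw [place_sq hb]; group
    · rw [e2, eU]
      show D.place i x z' * _ * D.place i x z' * _ * (D.place i x z' * _ * D.place i x z') = _
      rw [conj_three (place_sq hb i x z') (place_sw_comm hb hr g1.symm (gf.sub (by simp)) h2
        h1.symm hxy g3 g2 i), sw_symm _ w' y, sw_move h2.symm g2.symm g3]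
      exact congrArg (fun u => D.place i x z' * u * D.place i x z') (sw_symm _ _ _)
  -- the transposition over the domain
  have kD : Commute (U * t) (D.sw (gdom (D.g i)) x w) := by
    have e : D.sw (gdom (D.g i)) x w =
        D.srcTr i x c z * D.srcTr i w c z * D.srcTr i x c z := by
      show _ = D.place i z c * _ * D.place i z c * (D.place i z c * _ * D.place i z c) *
        (D.place i z c * _ * D.place i z c)
      have hc' := place_sw_comm hb hdef hcz.symm (hfc.sub (by simp)) hwx.symm hzx hzw hcx hcw i
      calc D.sw (gdom (D.g i)) x w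
          = D.place i z c * D.sw (gdom (D.g i)) x w * D.place i z c := by
            rw [hc'.eq, mul_assoc, place_sq hb, mul_one]
        _ = D.place i z c * (D.sw (gdom (D.g i)) z x * D.sw (gdom (D.g i)) z w *
              D.sw (gdom (D.g i)) z x) * D.place i z c := by rw [sw_move hzw hzx hwx.symm]
        _ = D.place i z c * D.sw (gdom (D.g i)) z x * (D.place i z c * D.place i z c) *
              D.sw (gdom (D.g i)) z w * (D.place i z c * D.place i z c) *
              D.sw (gdom (D.g i)) z x * D.place i z c := by rw [place_sq hb]; group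
        _ = _ := by group
    have hxc : Commute (U * t) (D.srcTr i x c z) :=
      k2 c hcx hcy z hzx hzy hcz.symm (hfc.sub (by simp))
    have hwc : Commute (U * t) (D.srcTr i w c z) := by
      obtain ⟨d, hd, hfd⟩ := hfc.fresh
      simp only [List.mem_cons, List.not_mem_nil, or_false, forall_eq_or_imp, forall_eq] at hd
      obtain ⟨hdc, hdz, hdx, hdy, hdw⟩ := hd
      rw [srcTr_indep hb hcw.symm hzw hcz.symm hdw hdc (hfc.sub (by simp)) (hfd.sub (by simp))]
      show Commute (D.srcTr i x y z * t) (D.srcTr i w c d)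
      have fz := hfd.sub (L' := [z, y, d, c]) (by simp)
      have ft := hfd.sub (L' := [x, y, d, c]) (by simp)
      have P1 : ∀ a b, Apart a d → Apart a c → Apart b d → Apart b c → Apart a b → Apart a w →
          Apart b w → Free [a, b, d, c] → Commute (D.place i a b) (D.srcTr i w c d) := by
        intro a b q1 q2 q3 q4 q5 q6 q7 qf
        refine ((place_place_comm hb (room_four q5 q1 q2 q3 q4 hdc qf) i i).mul_right
          (place_sw_comm hb hdef q5 (qf.sub (by simp)) hdw q1 q6 q3 q7 i)).mul_right
          (place_place_comm hb (room_four q5 q1 q2 q3 q4 hdc qf) i i)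
      have S1 : Commute (D.sw (gdom (D.g i)) z x) (D.srcTr i w c d) :=
        (((place_sw_comm hb hdef hdc (hfd.sub (by simp)) hzx hdz hdx hcz hcx i).symm.mul_right
          (sw_commute hb hdef hdef hzx hdw hdz.symm hzw hdx.symm hwx.symm)).mul_right
          (place_sw_comm hb hdef hdc (hfd.sub (by simp)) hzx hdz hdx hcz hcx i).symm)
      have Pz := P1 z y hdz.symm hcz.symm hdy.symm hcy.symm hzy hzw hwy.symm fz
      have Pt := P1 x y hdx.symm hcx.symm hdy.symm hcy.symm hxy hwx.symm hwy.symm ft
      exact ((Pz.mul_left S1).mul_left Pz).mul_left Pt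
    rw [e]
    exact (hxc.mul_right hwc).mul_right hxc
  have kC : Commute (U * t) (D.sw (gdom (D.g i))ᶜ x w) := by
    have hdc : D.Def (gdom (D.g i))ᶜ := hdef.compl
    have fy : FixCone y (vswap (S := S) hwx.symm) := fixCone_vswap _ hxy.symm hwy.symm
    have c1 : Commute t (D.sw (gdom (D.g i))ᶜ x w) := by
      rw [sw_eq hwx.symm]
      exact place_comm_dom hb hxy (hf.sub (by simp)) hdc disjoint_compl_left fy
    have c2 : Commute (D.place i z y) (D.sw (gdom (D.g i))ᶜ x w) :=
      place_sw_comm hb hdc hzy (hf.sub (by simp)) hwx.symm hzx hzw hxy.symm hwy.symm i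
    have c3 : Commute (D.sw (gdom (D.g i)) z x) (D.sw (gdom (D.g i))ᶜ x w) := by
      rw [sw_eq hwx.symm]
      exact sw_commute_disjoint hb hdef hdc disjoint_compl_right _ _ _
    exact ((c2.mul_left c3).mul_left c2).mul_left c1
  have kφ : Commute (U * t) (D.φ (vswap hwx.symm)) := by
    have e := h_compl hb hdef (vswap hwx.symm)
    rw [← sw_eq hwx.symm, ← sw_eq hwx.symm] at e
    rw [e]
    exact kD.mul_right kC
  let v : Vgrp S := vswap hwx.symm
  have fz : FixCone z v := fixCone_vswap _ hzx hzw
  have fy : FixCone y v := fixCone_vswap _ hxy.symm hwy.symm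
  have mx : MapsCone x w v := mapsCone_vswap _
  have e1 := place_conj hb (v := v) hzy (hf.sub (by simp)) fz fy i
  have e2 := sw_conj hb (v := v) hdef hzx hzw fz mx
  have e3 := place_conj hb (v := v) hxy (hf.sub (by simp)) mx fy i
  have key : D.φ v * (U * t) * (D.φ v)⁻¹ = U * t := by
    rw [← kφ.eq, mul_inv_cancel_right]
  refine key.symm.trans ?_
  show D.φ v * (D.place i z y * D.sw (gdom (D.g i)) z x * D.place i z y * D.place i x y) *
    (D.φ v)⁻¹ = D.place i z y * D.sw (gdom (D.g i)) z w * D.place i z y * D.place i w y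
  calc D.φ v * (D.place i z y * D.sw (gdom (D.g i)) z x * D.place i z y * D.place i x y) *
        (D.φ v)⁻¹
      = (D.φ v * D.place i z y * (D.φ v)⁻¹) * (D.φ v * D.sw (gdom (D.g i)) z x * (D.φ v)⁻¹) *
          (D.φ v * D.place i z y * (D.φ v)⁻¹) * (D.φ v * D.place i x y * (D.φ v)⁻¹) := by group
    _ = _ := by rw [e1, e2, e3]

/-- The defect read through the partner generator. -/
theorem defect_partner {j : D.ι} (hj : D.g j = ginv (D.g i))
    (hG : D.G j = D.φ (vswap colAB) * D.G i * (D.φ (vswap colAB))⁻¹) {x y z : List Bool}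
    (hxy : Apart x y) (hzx : Apart z x) (hzy : Apart z y) (hf : Free [z, x, y]) :
    D.defect i x y z = D.defect j y x z := by
  rw [defect, defect, src_tgt hb hxy hzx hzy hzx hzy hf hf, srcTr, tgtTr,
    place_partner hb hG hzx.symm (hf.sub (by simp)), gdom_partner hj,
    place_partner hb hG hxy (hf.sub (by simp)), sw_symm _ z y]

theorem defect_move_tgt {x y w z : List Bool} (hxy : Apart x y) (hwx : Apart w x)
    (hwy : Apart w y) (hz : Apart z x ∧ Apart z y ∧ Apart z w) (hf : Free [z, x, y, w]) :
    D.defect i x y z = D.defect i x w z := by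
  obtain ⟨j, hj, hG⟩ := hb.inv i
  rw [defect_partner hb hj hG hxy hz.1 hz.2.1 (hf.sub (by simp)),
    defect_partner hb hj hG hwx.symm hz.1 hz.2.2 (hf.sub (by simp))]
  exact defect_move_src hb hxy.symm hwy hwx ⟨hz.2.1, hz.1, hz.2.2⟩ (hf.sub (by simp))

theorem defect_halve {x y z : List Bool} (hxy : Apart x y) (hzx : Apart z x) (hzy : Apart z y)
    (hf : Free [z, x, y]) :
    D.defect i x y z = D.defect i (x ++ [false]) (y ++ [false]) (z ++ [false]) *
      D.defect i (x ++ [true]) (y ++ [true]) (z ++ [true]) := by
  have hd : D.Def (gdom (D.g i)) := hb.dom i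
  have fzy : Free [z, y] := hf.sub (by simp)
  have fxy : Free [x, y] := hf.sub (by simp)
  have zz := (apart_bits z).symm
  have yy := (apart_bits y).symm
  have xx := (apart_bits x).symm
  have hP : Commute (D.place i (z ++ [true]) (y ++ [true]))
      (D.place i (z ++ [false]) (y ++ [false])) :=
    place_place_comm hb (room_four (hzy.append _ _) zz (hzy.append _ _) (hzy.symm.append _ _) yy
      (hzy.append _ _) (fzy.mono (by simp))) i i
  have hPS : Commute (D.place i (z ++ [true]) (y ++ [true]))
      (D.sw (gdom (D.g i)) (z ++ [false]) (x ++ [false])) :=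
    place_sw_comm hb hd (hzy.append _ _) (fzy.mono (by simp)) (hzx.append _ _) zz (hzx.append _ _)
      (hzy.symm.append _ _) (hxy.symm.append _ _) i
  have hSP : Commute (D.sw (gdom (D.g i)) (z ++ [true]) (x ++ [true]))
      (D.place i (z ++ [false]) (y ++ [false])) :=
    (place_sw_comm hb hd (hzy.append _ _) (fzy.mono (by simp)) (hzx.append _ _) zz.symm
      (hzx.append _ _) (hzy.symm.append _ _) (hxy.symm.append _ _) i).symm
  have hPt : Commute (D.place i (z ++ [true]) (y ++ [true]))
      (D.place i (x ++ [false]) (y ++ [false])) :=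
    place_place_comm hb (room_four (hzy.append _ _) (hzx.append _ _) (hzy.append _ _)
      (hxy.symm.append _ _) yy (hxy.append _ _) (hf.mono (by simp))) i i
  have hSt : Commute (D.sw (gdom (D.g i)) (z ++ [true]) (x ++ [true]))
      (D.place i (x ++ [false]) (y ++ [false])) :=
    (place_sw_comm hb hd (hxy.append _ _) (fxy.mono (by simp)) (hzx.append _ _)
      (hzx.symm.append _ _) xx.symm (hzy.symm.append _ _) (hxy.symm.append _ _) i).symm
  simp only [defect, srcTr]
  rw [place_halve hb hzy fzy, sw_halve hzx, mul_four_comm hP hPS hSP, place_halve hb hxy fxy]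
  exact (Commute.mul_mul_mul_comm ((hPt.mul_left hSt).mul_left hPt) _ _)

/-- The defect is trivial. -/
theorem defect_one {x y z : List Bool} (hxy : Apart x y) (hzx : Apart z x) (hzy : Apart z y)
    (hf : Free [z, x, y]) : D.defect i x y z = 1 := by
  obtain ⟨c, hc, h1⟩ := (hf.sub (L' := [x, y]) (by simp)).fresh
  obtain ⟨d, hd, h2⟩ := h1.fresh
  obtain ⟨e, he, h3⟩ := h2.fresh
  simp only [List.mem_cons, List.not_mem_nil, or_false, forall_eq_or_imp, forall_eq] at hc hd he
  obtain ⟨hcx, hcy⟩ := hc
  obtain ⟨hdc, hdx, hdy⟩ := hd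
  obtain ⟨hed, hec, hex, hey⟩ := he
  have move : ∀ a b z', Apart a b → Apart z' a → Apart z' b → Free [z', a, b] →
      Apart c a → Apart c b → Apart d a → Apart d b → Apart e a → Apart e b →
      Free [e, d, c, a, b] → D.defect i a b z' = D.defect i c d e := by
    intro a b z' hab za zb zf ca cb da db ea eb hF
    rw [defect_indep hb hab za zb ea eb zf (hF.sub (by simp)),
      defect_move_src hb hab ca cb ⟨ea, eb, hec⟩ (hF.sub (by simp)),
      defect_move_tgt hb cb hdc db ⟨hec, eb, hed⟩ (hF.sub (by simp))]
  have e0 := move x y z hxy hzx hzy hf hcx hcy hdx hdy hex hey h3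
  have half : ∀ u : Bool, D.defect i (x ++ [u]) (y ++ [u]) (z ++ [u]) = D.defect i c d e := fun u =>
    move _ _ _ (hxy.append _ _) (hzx.append _ _) (hzy.append _ _) (hf.mono (by simp))
      (hcx.ext_right _) (hcy.ext_right _) (hdx.ext_right _) (hdy.ext_right _) (hex.ext_right _)
      (hey.ext_right _) (h3.mono (by simp))
  have h := defect_halve hb hxy hzx hzy hf (i := i)
  rw [half false, half true, e0] at h
  rw [e0]
  exact mul_left_cancel (a := D.defect i c d e) (h.symm.trans (mul_one _).symm)

/-- A placed generator is the transported transposition on the source side. -/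
theorem braid_src {x y z : List Bool} (hxy : Apart x y) (hzx : Apart z x) (hzy : Apart z y)
    (hf : Free [z, x, y]) (i : D.ι) :
    D.place i x y =
      D.place i z y * D.sw (gdom (D.g i)) z x * (D.place i z y)⁻¹ := by
  rw [place_inv hb]
  have h := defect_one hb (i := i) hxy hzx hzy hf
  rw [defect, mul_eq_one_iff_eq_inv, place_inv hb] at h
  exact h.symm

/-- A placed generator is the transported transposition on the target side. -/
theorem braid_tgt {x y z : List Bool} (hxy : Apart x y) (hzx : Apart z x) (hzy : Apart z y)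
    (hf : Free [z, x, y]) (i : D.ι) :
    D.place i x y =
      D.place i x z * D.sw (gran (D.g i)) y z * (D.place i x z)⁻¹ := by
  rw [place_inv hb]
  have h := defect_one hb (i := i) hxy hzx hzy hf
  rw [defect, mul_eq_one_iff_eq_inv, place_inv hb] at h
  rw [← h, src_tgt hb hxy hzx hzy hzx hzy hf hf]
  rfl

end Setup

end Vale.Agent.P193.Calc
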