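import Vale.Agent.P193.Full.Calc.Maps.Track

/-! The kernel of the calculus is central. The trivial-coefficient transposition of two long
cones is refined along an element of the kernel into pieces, each carried to one piece with the
same cones and the same map, hence to itself. The centraliser of the kernel is normal, so it
contains the trivial-coefficient group and, by halving, everything. -/

namespace Vale.Agent.P193.Calc

open Classical

namespace Setup

variable {S : Type} (D : Setup S)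

/-- The facts about canonical elements of pieces used in this file. -/
structure TermFacts : Prop where
  empty : ∀ (p q : List Bool) (w : List D.ι), Free [p, q] → D.term p q ∅ w = 1
  vswap : ∀ (p q : List Bool) (h : Apart p q), Free [p, q] →
    D.term p q Set.univ [] = D.φ (vswap h)
  union : ∀ (p q : List Bool) (e₁ e₂ : Set S) (w : List D.ι), D.Ok p q (e₁ ∪ e₂) w →
    D.Def e₁ → D.Def e₂ → Disjoint e₁ e₂ →
    D.term p q (e₁ ∪ e₂) w = D.term p q e₁ w * D.term p q e₂ w
  congr : ∀ (p q : List Bool) (e : Set S) (w w' : List D.ι), D.Ok p q e w → D.Ok p q e w' →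
    (∀ s ∈ e, ∀ t, (s, t) ∈ D.wgraph w ↔ (s, t) ∈ D.wgraph w') →
    D.term p q e w = D.term p q e w'
  conj_phi : ∀ (p q p' q' : List Bool) (v : Vgrp S) (e : Set S) (w : List D.ι),
    MapsCone p p' v → MapsCone q q' v → D.Ok p q e w → D.Ok p' q' e w →
    D.φ v * D.term p q e w * (D.φ v)⁻¹ = D.term p' q' e w
  conj_gen : ∀ (i : D.ι) (p q p' q' : List Bool) (e e' f : Set S) (w u u' v v' : List D.ι),
    D.Ok p q e w → Free [p, q, colA, colB] → D.EndMove i p e p' e' u u' →
    D.EndMove i q (D.wimg w e) q' f v v' → D.Ok p' q' e' (u ++ w ++ v') →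
    D.G i * D.term p q e w * (D.G i)⁻¹ = D.term p' q' e' (u ++ w ++ v')

/-- The element `z` carries the part `U(e')` of the piece at `(p, q)` along `w` to the piece at
`(p', q')` over `e'` along `w'`. -/
structure Carry (z : D.P) (p q : List Bool) (w : List D.ι) (p' q' : List Bool) (e' : Set S)
    (U w' : List D.ι) : Prop where
  ok : D.Ok p' q' e' w'
  wdef : D.WDef U e'
  eq : ∀ e₁, e₁ ⊆ e' → D.Def e₁ →
    z * D.term p q (D.wimg U e₁) w * z⁻¹ = D.term p' q' e₁ w'
  track : ∀ s' s t, s' ∈ e' → (s', s) ∈ D.wgraph U → (s, t) ∈ D.wgraph w →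
    ∃ t', (s', t') ∈ D.wgraph w' ∧ ∀ f,
      D.π z ((hv S).pre p (f, s)) = (hv S).pre p' (f, s') ∧
      D.π z ((hv S).pre q (f, t)) = (hv S).pre q' (f, t')

/-- The set `e` is cut into parts that `z` carries to pieces whose cones are at most `c` bits
shorter. -/
inductive Reach (z : D.P) (c : ℕ) (p q : List Bool) (w : List D.ι) : Set S → Prop
  | one {e e' : Set S} {p' q' : List Bool} {U w' : List D.ι} :
      D.Carry z p q w p' q' e' U w' → p.length ≤ p'.length + c → q.length ≤ q'.length + c →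
      D.wimg U e' = e → Reach z c p q w e
  | union {e₁ e₂ : Set S} : D.Def e₁ → D.Def e₂ → Disjoint e₁ e₂ →
      Reach z c p q w e₁ → Reach z c p q w e₂ → Reach z c p q w (e₁ ∪ e₂)

/-- Every long piece is cut into parts carried by `z`. -/
def Moves (z : D.P) : Prop :=
  ∃ n c, ∀ p q e w, n ≤ p.length → n ≤ q.length → D.Ok p q e w → D.Reach z c p q w e

variable {D} {z z' : D.P} {p q p' q' p'' q'' : List Bool} {e e₁ e' e'' : Set S}
  {U U' w w' w'' : List D.ι}

theorem Ok.mono (h : D.Ok p q e w) (he : e₁ ⊆ e) (hd : D.Def e₁) : D.Ok p q e₁ w :=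
  ⟨hd, wdef_mono he h.wdef, h.free,
    h.disj.imp id fun d => d.mono he (wimg_mono w he)⟩

theorem Carry.comp (hb : D.Base) (h : D.Carry z p q w p' q' e' U w')
    (h' : D.Carry z' p' q' w' p'' q'' e'' U' w'') (hsub : D.wimg U' e'' ⊆ e') :
    D.Carry (z' * z) p q w p'' q'' e'' (U' ++ U) w'' where
  ok := h'.ok
  wdef := (wdef_append U' U e'').2 ⟨h'.wdef, wdef_mono hsub h.wdef⟩
  eq e₁ he₁ hd := by
    rw [wimg_append, ← h'.eq e₁ he₁ hd,
      ← h.eq _ ((wimg_mono U' he₁).trans hsub) (def_wimg hb hd U')]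
    group
  track s'' s t hs'' hU ht := by
    obtain ⟨s', h1, h2⟩ := (mem_wgraph_append U' U).1 hU
    obtain ⟨t', ht', hπ⟩ := h.track s' s t (hsub ((mem_wimg U').2 ⟨s'', hs'', h1⟩)) h2 ht
    obtain ⟨t'', ht'', hπ'⟩ := h'.track s'' s' t' hs'' h1 ht'
    refine ⟨t'', ht'', fun f => ?_⟩
    rw [map_mul, Equiv.Perm.mul_apply, Equiv.Perm.mul_apply, (hπ f).1, (hπ f).2]
    exact hπ' f

theorem Reach.comp (hb : D.Base) {c c' : ℕ} (h : D.Carry z p q w p' q' e' U w')
    (hp : p.length ≤ p'.length + c) (hq : q.length ≤ q'.length + c) {d : Set S}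
    (hr : D.Reach z' c' p' q' w' d) : d ⊆ e' → D.Reach (z' * z) (c + c') p q w (D.wimg U d) := by
  induction hr with
  | one h' hp' hq' he =>
    intro hsub
    subst he
    exact .one (h.comp hb h' hsub) (by omega) (by omega) (wimg_append _ _ _)
  | union h1 h2 hd _ _ ih1 ih2 =>
    intro hsub
    rw [wimg_union]
    exact .union (def_wimg hb h1 U) (def_wimg hb h2 U) (wimg_disjoint U hd)
      (ih1 (Set.subset_union_left.trans hsub)) (ih2 (Set.subset_union_right.trans hsub))

theorem Moves.mul (hb : D.Base) (hz : D.Moves z) (hz' : D.Moves z') : D.Moves (z' * z) := by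
  obtain ⟨n, c, hn⟩ := hz
  obtain ⟨n', c', hn'⟩ := hz'
  refine ⟨max n (n' + c), c + c', fun p q e w hp hq ok => ?_⟩
  induction hn p q e w (by omega) (by omega) ok with
  | one h hp' hq' he =>
    subst he
    exact Reach.comp hb h hp' hq' (hn' _ _ _ _ (by omega) (by omega) h.ok) subset_rfl
  | union h1 h2 hd _ _ ih1 ih2 =>
    exact .union h1 h2 hd (ih1 (ok.mono Set.subset_union_left h1))
      (ih2 (ok.mono Set.subset_union_right h2))

theorem Moves.one : D.Moves 1 := by
  refine ⟨0, 0, fun p q e w _ _ ok => .one (U := []) (w' := w) (p' := p) (q' := q) (e' := e)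
    ⟨ok, trivial, fun e₁ _ _ => by rw [one_mul, inv_one, mul_one]; rfl,
      fun s' s t _ hU ht => ?_⟩ le_rfl le_rfl rfl⟩
  obtain rfl : s' = s := mem_wgraph_nil.1 hU
  exact ⟨t, ht, fun f => by rw [map_one]; exact ⟨rfl, rfl⟩⟩

variable (hb : D.Base) (F : D.TermFacts)
include F

theorem moves_phi (v : Vgrp S) : D.Moves (D.φ v) := by
  obtain ⟨n, C, hC⟩ := vgrp_cones v
  refine ⟨n + 3, n, fun p q e w hp hq ok => ?_⟩
  obtain ⟨hpl, hpm, hap⟩ := hC p (by omega)
  obtain ⟨hql, hqm, -⟩ := hC q (by omega)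
  have hfree : Free [C p, C q] :=
    (free_long (p := C p) (q := C q) (by omega) (by omega)).sub (by simp)
  have ok' : D.Ok (C p) (C q) e w :=
    ⟨ok.df, ok.wdef, hfree, ok.disj.imp (hap q (by omega)) id⟩
  refine .one (U := []) (w' := w) (e' := e) ⟨ok', trivial, fun e₁ he₁ hd => ?_,
    fun s' s t _ hU ht => ?_⟩ hpl hql rfl
  · exact F.conj_phi _ _ _ _ v e₁ w hpm hqm (ok.mono he₁ hd) (ok'.mono he₁ hd)
  · obtain rfl : s' = s := mem_wgraph_nil.1 hU
    exact ⟨t, ht, fun f => by rw [D.π_φ]; exact ⟨hpm _, hqm _⟩⟩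

include hb

theorem moves_gen (i : D.ι) : D.Moves (D.G i) := by
  refine ⟨3, 0, fun p q e w hp hq ok => ?_⟩
  refine endMove_split hb i ok.df hp (D.Reach (D.G i) 0 p q w)
    (fun a b _ _ ha hb' hd => .union ha hb' hd) fun e₁ he₁ hd₁ p' _ u u' m₁ => ?_
  obtain ⟨wr, hwr⟩ := exists_reverse hb w
  let pull : Set S → Set S := fun f => e₁ ∩ D.wimg wr f
  have mem_pull : ∀ f s, s ∈ pull f ↔ s ∈ e₁ ∧ ∃ t ∈ f, (s, t) ∈ D.wgraph w := fun f s => by
    show s ∈ e₁ ∧ s ∈ D.wimg wr f ↔ _
    simp only [mem_wimg, hwr]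
  have hall : pull (D.wimg w e₁) = e₁ := by
    ext s
    rw [mem_pull]
    refine ⟨And.left, fun hs => ⟨hs, ?_⟩⟩
    obtain ⟨t, ht⟩ := wdef_exists (wdef_mono he₁ ok.wdef) hs
    exact ⟨t, (mem_wimg w).2 ⟨s, hs, ht⟩, ht⟩
  rw [← hall]
  refine endMove_split hb i (def_wimg hb hd₁ w) hq (fun f => D.Reach (D.G i) 0 p q w (pull f))
    (fun a b _ _ ha hb' hd r₁ r₂ => ?_) fun f₁ hf₁ hdf₁ q' _ v v' m₂ => ?_
  · have hu : pull (a ∪ b) = pull a ∪ pull b := by
      show e₁ ∩ D.wimg wr (a ∪ b) = _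
      rw [wimg_union, Set.inter_union_distrib_left]
    rw [hu]
    exact .union (hd₁.inter (def_wimg hb ha wr)) (hd₁.inter (def_wimg hb hb' wr))
      ((wimg_disjoint wr hd).mono Set.inter_subset_right Set.inter_subset_right) r₁ r₂
  have hsub : pull f₁ ⊆ e := Set.inter_subset_left.trans he₁
  have hd₂ : D.Def (pull f₁) := hd₁.inter (def_wimg hb hdf₁ wr)
  have himg : D.wimg w (pull f₁) = f₁ := by
    ext t
    rw [mem_wimg]
    constructor
    · rintro ⟨s, hs, hst⟩
      obtain ⟨-, t', ht', hst'⟩ := (mem_pull f₁ s).1 hs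
      exact (wgraph_pb w).1 _ _ _ hst hst' ▸ ht'
    · intro ht
      obtain ⟨s, hs, hst⟩ := (mem_wimg w).1 (hf₁ ht)
      exact ⟨s, (mem_pull f₁ s).2 ⟨hs, t, ht, hst⟩, hst⟩
  generalize he₂ : pull f₁ = e₂ at hsub hd₂ himg ⊢
  have hsub₁ : e₂ ⊆ e₁ := he₂ ▸ Set.inter_subset_left
  subst himg
  have m : D.EndMove i p e₂ p' (D.wimg u' e₂) u u' := m₁.restrict hsub₁
  have m' : D.EndMove i q (D.wimg w e₂) q' (D.wimg v' (D.wimg w e₂)) v v' :=
    m₂.restrict subset_rfl
  have ok₂ := ok.mono hsub hd₂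
  have himg' : D.wimg (u ++ w ++ v') (D.wimg u' e₂) = D.wimg v' (D.wimg w e₂) := by
    rw [wimg_append, wimg_append, m.back]
  have ok' : D.Ok p' q' (D.wimg u' e₂) (u ++ w ++ v') := by
    refine ⟨def_wimg hb hd₂ u', ?_,
      (free_long (p := p') (q := q') (m.length_eq ▸ hp) (m'.length_eq ▸ hq)).sub (by simp), ?_⟩
    · rw [wdef_append, wdef_append, wimg_append, m.back]
      exact ⟨⟨m.wdef_back, ok₂.wdef⟩, m'.wdef_fwd⟩
    · refine or_iff_not_imp_left.2 fun hna => ?_
      rw [himg', Set.disjoint_left]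
      intro r hr hr'
      obtain ⟨f, g, e1⟩ := pre_common hna r
      obtain ⟨s, hs, hsr⟩ := (mem_wimg u').1 hr
      obtain ⟨t, ht, htr⟩ := (mem_wimg v').1 hr'
      rw [← m.π_apply hs hsr f, ← m'.π_apply ht htr g] at e1
      have e2 := (D.π (D.G i)).injective e1
      rcases ok₂.disj with hap | hdis
      · exact hap.incomp _ _ e2
      · have e3 := congrArg Prod.snd e2
        rw [hv_pre_snd, hv_pre_snd] at e3
        exact Set.disjoint_left.1 hdis hs ((show s = t from e3) ▸ ht)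
  refine .one (U := u) (e' := D.wimg u' e₂) (w' := u ++ w ++ v')
    ⟨ok', m.wdef_back, fun e₃ he₃ hd₃ => ?_, fun s' s t hs' hU ht => ?_⟩
    (by rw [m.length_eq]; omega) (by rw [m'.length_eq]; omega) m.back
  · have hs₃ : D.wimg u e₃ ⊆ e₂ := (wimg_mono u he₃).trans_eq m.back
    have m₃ := m.restrict hs₃
    rw [m.fwd_back he₃] at m₃
    exact F.conj_gen i p q p' q' _ _ _ w u u' v v' (ok₂.mono hs₃ (def_wimg hb hd₃ u))
      (free_long hp hq) m₃ (m'.restrict (wimg_mono w hs₃)) (ok'.mono he₃ hd₃)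
  · have hs := m.back_mem hs' hU
    have ht₂ : t ∈ D.wimg w e₂ := (mem_wimg w).2 ⟨s, hs, ht⟩
    obtain ⟨t', htt'⟩ := wdef_exists m'.wdef_fwd ht₂
    exact ⟨t', (mem_wgraph_append _ _).2 ⟨t, (mem_wgraph_append _ _).2 ⟨s, hU, ht⟩, htt'⟩,
      fun f => ⟨m.π_apply hs (m.graph.1 hU) f, m'.π_apply ht₂ htt' f⟩⟩

theorem moves_all (hg : D.Generated) (z : D.P) : D.Moves z := by
  have hz : z ∈ Subgroup.closure (Set.range D.φ ∪ Set.range D.G) := hg ▸ Subgroup.mem_top z
  suffices h : D.Moves z ∧ D.Moves z⁻¹ from h.1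
  induction hz using Subgroup.closure_induction with
  | mem x hx =>
    rcases hx with ⟨v, rfl⟩ | ⟨i, rfl⟩
    · rw [← map_inv]; exact ⟨moves_phi F v, moves_phi F v⁻¹⟩
    · rw [G_inv hb]; exact ⟨moves_gen hb F i, moves_gen hb F i⟩
  | one => rw [inv_one]; exact ⟨Moves.one, Moves.one⟩
  | mul x y _ _ hx hy =>
    rw [mul_inv_rev]
    exact ⟨hy.1.mul hb hx.1, hx.2.mul hb hy.2⟩
  | inv x _ hx => rw [inv_inv]; exact hx.symm

omit hb in
/-- An element of the kernel fixes every piece it reaches. -/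
theorem commute_reach {c : ℕ} (hz : z ∈ D.π.ker) (h : D.Reach z c p q w e) :
    D.Ok p q e w → Commute z (D.term p q e w) := by
  induction h with
  | union h1 h2 hd _ _ ih1 ih2 =>
    intro ok
    rw [F.union _ _ _ _ _ ok h1 h2 hd]
    exact (ih1 (ok.mono Set.subset_union_left h1)).mul_right
      (ih2 (ok.mono Set.subset_union_right h2))
  | @one e e' p' q' U w' h _ _ he =>
    intro ok
    subst he
    have hπ : ∀ x, D.π z x = x := fun x => by rw [MonoidHom.mem_ker.1 hz]; rfl
    rcases e'.eq_empty_or_nonempty with rfl | ⟨s₀, hs₀⟩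
    · have h0 : D.wimg U (∅ : Set S) = ∅ :=
        Set.eq_empty_of_forall_notMem fun t ht => by
          obtain ⟨s, hs, -⟩ := (mem_wimg U).1 ht
          exact hs
      rw [h0, F.empty _ _ _ ok.free]
      exact Commute.one_right z
    have data : ∀ s' ∈ e', ∃ t, (s', s') ∈ D.wgraph U ∧ (s', t) ∈ D.wgraph w ∧
        (s', t) ∈ D.wgraph w' ∧ p = p' ∧ q = q' := by
      intro s' hs'
      obtain ⟨s, hs⟩ := wdef_exists h.wdef hs'
      obtain ⟨t, ht⟩ := wdef_exists ok.wdef ((mem_wimg U).2 ⟨s', hs', hs⟩)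
      obtain ⟨t', ht', hf⟩ := h.track s' s t hs' hs ht
      obtain ⟨hp, rfl⟩ := pre_fun_injective fun f => (hπ _).symm.trans (hf f).1
      obtain ⟨hq, rfl⟩ := pre_fun_injective fun f => (hπ _).symm.trans (hf f).2
      exact ⟨t, hs, ht, ht', hp, hq⟩
    obtain ⟨-, -, -, -, rfl, rfl⟩ := data s₀ hs₀
    have hU : D.wimg U e' = e' := by
      ext s
      rw [mem_wimg]
      constructor
      · rintro ⟨s', hs', hss⟩
        obtain ⟨t, h1, -⟩ := data s' hs'
        exact (wgraph_pb U).1 _ _ _ h1 hss ▸ hs'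
      · exact fun hs => ⟨s, hs, (data s hs).choose_spec.1⟩
    rw [hU] at ok ⊢
    have key := h.eq e' subset_rfl h.ok.df
    rw [hU, ← F.congr p q e' w w' ok h.ok fun s hs t => ?_] at key
    · exact mul_inv_eq_iff_eq_mul.1 key
    · obtain ⟨t₀, -, h1, h2, -⟩ := data s hs
      exact ⟨fun ht => (wgraph_pb w).1 _ _ _ h1 ht ▸ h2,
        fun ht => (wgraph_pb w').1 _ _ _ h2 ht ▸ h1⟩

/-- An element of the kernel commutes with every trivial-coefficient transposition. -/
theorem commute_vswap (hg : D.Generated) (hz : z ∈ D.π.ker) (h : Apart p q) :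
    Commute z (D.φ (vswap h)) := by
  obtain ⟨n, c, hn⟩ := moves_all hb F hg z
  suffices H : ∀ k (p q : List Bool) (h : Apart p q), max n 3 ≤ p.length + k →
      max n 3 ≤ q.length + k → Commute z (D.φ (vswap h)) from
    H (max n 3) p q h (by omega) (by omega)
  intro k
  induction k with
  | zero =>
    intro p q h hp hq
    have hf : Free [p, q] :=
      (free_long (p := p) (q := q) (by omega) (by omega)).sub (by simp)
    have ok : D.Ok p q Set.univ [] := ⟨def_univ, trivial, hf, Or.inl h⟩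
    rw [← F.vswap p q h hf]
    exact commute_reach F hz (hn p q _ [] (by omega) (by omega) ok) ok
  | succ k ih =>
    intro p q h hp hq
    rw [vswap_split h, map_mul]
    exact (ih _ _ _ (by simp; omega) (by simp; omega)).mul_right
      (ih _ _ _ (by simp; omega) (by simp; omega))

theorem kernelCentral_of_facts (hg : D.Generated) : D.KernelCentral := by
  let C : Subgroup D.P := Subgroup.centralizer (D.π.ker : Set D.P)
  have : C.Normal := Subgroup.normal_centralizer
  have hA : D.φ (vswap colAB) ∈ C := Subgroup.mem_centralizer_iff.2 fun z hz =>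
    (commute_vswap hb F hg hz colAB).eq
  have hV : ∀ v, D.φ v ∈ C := by
    intro v
    have hle : conjGen S ≤ C.comap D.φ := (Subgroup.closure_le _).2 (by
      rintro _ ⟨k, rfl⟩
      show D.φ (k * vswap colAB * k⁻¹) ∈ C
      rw [map_mul, map_mul, map_inv]
      exact Subgroup.Normal.conj_mem ‹C.Normal› _ hA _)
    exact hle (vswap_conj_generate (S := S) ▸ Subgroup.mem_top v)
  have hG : ∀ i, D.G i ∈ C := by
    intro i
    obtain ⟨k₀, h0a, h0b⟩ := exists_halver (S := S) false
    obtain ⟨k₁, h1a, h1b⟩ := exists_halver (S := S) true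
    have e := congrArg (QuotientGroup.mk' C) (hb.halve i k₀ k₁ h0a h0b h1a h1b)
    have one : ∀ k : Vgrp S, QuotientGroup.mk' C (D.φ k) = 1 :=
      fun k => (QuotientGroup.eq_one_iff _).2 (hV k)
    simp only [map_mul, map_inv, one, one_mul, inv_one, mul_one] at e
    exact (QuotientGroup.eq_one_iff _).1 (left_eq_mul.1 e)
  have htop : ∀ x, x ∈ C := by
    intro x
    have hle : Subgroup.closure (Set.range D.φ ∪ Set.range D.G) ≤ C :=
      (Subgroup.closure_le _).2 (Set.union_subset (Set.range_subset_iff.2 hV)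
        (Set.range_subset_iff.2 hG))
    exact hle (hg ▸ Subgroup.mem_top x)
  intro z hz
  rw [Subgroup.mem_center_iff]
  exact fun x => (Subgroup.mem_centralizer_iff.1 (htop x) z hz).symm

end Setup

end Vale.Agent.P193.Calc
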