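import Vale.Agent.P193.Full.Calc.Maps.Cones

/-! Every element of the trivial-coefficient group carries all small cones onto cones. -/

namespace Vale.Agent.P193.Calc

open Classical

variable {S : Type}

/-- Small cones are carried onto cones. -/
theorem vgrp_deep (v : Vgrp S) :
    ∃ N, ∀ u : List Bool, N ≤ u.length → ∃ u', MapsCone u u' v := by
  obtain ⟨l, hl, he⟩ := mem_swapGroup_iff.1 v.2
  refine ⟨(l.map fun t => t.1.length).sum, fun u hu => ?_⟩
  by_cases hS : IsEmpty S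
  · exact ⟨u, fun x => isEmptyElim x.2⟩
  obtain ⟨s₀⟩ := not_isEmpty_iff.1 hS
  let x₀ : Sp S := (⟨fun _ => false, 0, fun _ _ => rfl⟩, s₀)
  have h0 : ((hv S).pre u x₀, (v : Equiv.Perm (Sp S)) ((hv S).pre u x₀)) ∈ unionOf (hv S) l := by
    rw [← he]; rfl
  obtain ⟨t, ht, hp⟩ := h0
  obtain ⟨a, b, hm, e⟩ := mem_piece.1 hp
  simp only [Prod.mk.injEq] at e
  rcases inMon_empty (hl t ht) with ht0 | ht0
  · have hlen : t.1.length ≤ u.length :=
      le_trans (le_list_sum (List.mem_map.2 ⟨t, ht, rfl⟩)) hu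
    obtain ⟨r, hr, -⟩ := pre_eq_prefix hlen e.1.symm
    refine ⟨t.2.1 ++ r, fun x => ?_⟩
    have h1 : ((hv S).pre u x, (hv S).pre (t.2.1 ++ r) x) ∈ graphOf (v : Equiv.Perm (Sp S)) := by
      rw [he, hr, pre_append, pre_append]
      exact ⟨t, ht, piece_mem (by rw [ht0]; exact ⟨rfl, trivial⟩)⟩
    exact h1
  · rw [ht0] at hm; exact absurd hm (Set.notMem_empty _)

/-- Images of disjoint cones are disjoint. -/
theorem MapsCone.apart [Nonempty S] {p q p' q' : List Bool} {v : Vgrp S} (h : Apart p q)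
    (hp : MapsCone p p' v) (hq : MapsCone q q' v) : Apart p' q' := by
  obtain ⟨s₀⟩ := ‹Nonempty S›
  let x₀ : Sp S := (⟨fun _ => false, 0, fun _ _ => rfl⟩, s₀)
  refine ⟨?_, ?_⟩
  · rintro ⟨r, rfl⟩
    refine (h.incomp (H := hv S)) ((hv S).pre r x₀) x₀ ((v : Equiv.Perm (Sp S)).injective ?_)
    rw [hp, hq, pre_append]
  · rintro ⟨r, rfl⟩
    refine (h.incomp (H := hv S)) x₀ ((hv S).pre r x₀) ((v : Equiv.Perm (Sp S)).injective ?_)
    rw [hp, hq, pre_append]

/-- A fresh cone whose image is fresh for the images. -/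
theorem exists_spare_image {v : Vgrp S} {p q p' q' : List Bool} (hp : MapsCone p p' v)
    (hq : MapsCone q q' v) (hf : Free [p, q]) (hf' : Free [p', q']) :
    ∃ r r', MapsCone r r' v ∧ Apart r p ∧ Apart r q ∧ Free [r, p, q] ∧
      Apart r' p' ∧ Apart r' q' ∧ Free [r', p', q'] := by
  by_cases hS : IsEmpty S
  · obtain ⟨r, hr, h1⟩ := hf.fresh
    obtain ⟨r', hr', h2⟩ := hf'.fresh
    simp only [List.mem_cons, List.not_mem_nil, or_false, forall_eq_or_imp, forall_eq] at hr hr'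
    exact ⟨r, r', fun x => isEmptyElim x.2, hr.1, hr.2, h1, hr'.1, hr'.2, h2⟩
  have := not_isEmpty_iff.1 hS
  obtain ⟨N, hN⟩ := vgrp_deep v
  obtain ⟨z, hz⟩ := hf
  simp only [List.mem_cons, List.not_mem_nil, or_false, forall_eq_or_imp, forall_eq] at hz
  let u := z ++ List.replicate N false
  obtain ⟨u', hu'⟩ := hN u (by simp [u])
  have h0 : MapsCone (u ++ [false]) (u' ++ [false]) v := hu'.append _
  have hup : Apart u p := hz.1.ext_left _
  have huq : Apart u q := hz.2.ext_left _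
  refine ⟨u ++ [false], u' ++ [false], h0, hup.ext_left _, huq.ext_left _, ⟨u ++ [true], ?_⟩,
    ((hu'.apart hup hp)).ext_left _, ((hu'.apart huq hq)).ext_left _, ⟨u' ++ [true], ?_⟩⟩
  · simp only [List.mem_cons, List.not_mem_nil, or_false, forall_eq_or_imp, forall_eq]
    exact ⟨(apart_bits u).symm, hup.ext_left _, huq.ext_left _⟩
  · simp only [List.mem_cons, List.not_mem_nil, or_false, forall_eq_or_imp, forall_eq]
    exact ⟨(apart_bits u').symm, (hu'.apart hup hp).ext_left _, (hu'.apart huq hq).ext_left _⟩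

end Vale.Agent.P193.Calc
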