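import Vale.Agent.P193.Full.Calc.Maps.Braid
import Vale.Agent.P193.Full.Calc.Maps.Deep

/-! The chains: independence of the spare cone, moving either endpoint, commutation,
concatenation. -/

namespace Vale.Agent.P193.Calc

open Classical
open scoped commutatorElement

theorem free3 {L : List (List Bool)} (h : Free L) (L' : List (List Bool)) (hs : L' ⊆ L) :
    Free L' := h.sub hs

namespace Setup

variable {S : Type} {D : Setup S}

theorem echain_nil (p q : List Bool) (e : Set S) : D.echain p q e [] = D.sw e p q := rfl

theorem chain_nil (p r q : List Bool) (e : Set S) : D.chain p r q e [] = D.sw e p q := rfl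

theorem chain_cons (p r q : List Bool) (e : Set S) (i : D.ι) (w : List D.ι) :
    D.chain p r q e (i :: w) =
      D.place i p r * D.chain r p q (D.img i e) w * (D.place i p r)⁻¹ := rfl

variable (hb : D.Base)
include hb

theorem chain_inv (p r q : List Bool) (e : Set S) (w : List D.ι) :
    (D.chain p r q e w)⁻¹ = D.chain p r q e w := by
  induction w generalizing p r e with
  | nil => rw [chain_nil, sw_inv]
  | cons i w ih => rw [chain_cons, mul_inv_rev, mul_inv_rev, inv_inv, ih, mul_assoc]

theorem echain_inv (p q : List Bool) (e : Set S) (w : List D.ι) :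
    (D.echain p q e w)⁻¹ = D.echain p q e w :=
  chain_inv hb p (spare [p, q]) q e w

theorem echain_sq (p q : List Bool) (e : Set S) (w : List D.ι) :
    D.echain p q e w * D.echain p q e w = 1 := by
  conv_lhs => arg 2; rw [← echain_inv hb]
  exact mul_inv_cancel _

/-- What commutes with the factors commutes with the chain. -/
theorem chain_comm_of {y : D.P} {q : List Bool} (w : List D.ι) :
    ∀ (p r : List Bool) (e : Set S), D.Def e → (∀ i, Commute y (D.place i p r)) →
      (∀ i, Commute y (D.place i r p)) → (∀ f, D.Def f → Commute y (D.sw f p q)) →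
      (∀ f, D.Def f → Commute y (D.sw f r q)) → Commute y (D.chain p r q e w) := by
  induction w with
  | nil => intro p r e he _ _ h _; exact h e he
  | cons i w ih =>
    intro p r e he h1 h2 h3 h4
    rw [chain_cons, place_inv hb]
    exact ((h1 i).mul_right (ih r p _ (def_img hb he i) h2 h1 h4 h3)).mul_right (h1 i)

/-- The two statements proved together: the spare cone does not matter, and the source moves. -/
def Good (D : Setup S) (w : List D.ι) : Prop :=
  (∀ p r q e, D.Def e → D.WDef w e → Apart p q → Apart r p → Apart r q → Free [r, p, q] →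
    D.chain p r q e w = D.echain p q e w) ∧
  ∀ p q x e, D.Def e → D.WDef w e → Apart p q → Apart x p → Apart x q → Free [x, p, q] →
    D.sw e p x * D.echain p q e w * D.sw e p x = D.echain x q e w

section
variable {w : List D.ι} (hw : Good D w) {p q a b : List Bool} {e f : Set S}
include hw

theorem Good.comm_sw (he : D.Def e) (hwd : D.WDef w e) (hpq : Apart p q) (hf : D.Def f)
    (hab : Apart a b) (hpa : Apart p a) (hpb : Apart p b) (hqa : Apart q a) (hqb : Apart q b)
    (hfr : Free [p, q, a, b]) : Commute (D.echain p q e w) (D.sw f a b) := by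
  obtain ⟨r, hr, hr'⟩ := hfr.fresh
  simp only [List.mem_cons, List.not_mem_nil, or_false, forall_eq_or_imp, forall_eq] at hr
  obtain ⟨hrp, hrq, hra, hrb⟩ := hr
  rw [← hw.1 p r q e he hwd hpq hrp hrq (hr'.sub (by simp))]
  refine (chain_comm_of hb w p r e he
    (fun i => (place_sw_comm hb hf hrp.symm (hr'.sub (by simp)) hab hpa hpb hra hrb i).symm)
    (fun i => (place_sw_comm hb hf hrp (hr'.sub (by simp)) hab hra hrb hpa hpb i).symm)
    (fun g hg => (sw_commute hb hg hf hpq hab hpa hpb hqa hqb).symm)
    (fun g hg => (sw_commute hb hg hf hrq hab hra hrb hqa hqb).symm)).symm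

theorem Good.comm_place (he : D.Def e) (hwd : D.WDef w e) (hpq : Apart p q) (hab : Apart a b)
    (hpa : Apart p a) (hpb : Apart p b) (hqa : Apart q a) (hqb : Apart q b)
    (hfr : Free [p, q, a, b]) (j : D.ι) : Commute (D.echain p q e w) (D.place j a b) := by
  obtain ⟨r, hr, hr'⟩ := hfr.fresh
  simp only [List.mem_cons, List.not_mem_nil, or_false, forall_eq_or_imp, forall_eq] at hr
  obtain ⟨hrp, hrq, hra, hrb⟩ := hr
  rw [← hw.1 p r q e he hwd hpq hrp hrq (hr'.sub (by simp))]
  refine (chain_comm_of hb w p r e he
    (fun i => place_place_comm hb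
      (room_four hab hpa.symm hra.symm hpb.symm hrb.symm hrp.symm (hr'.sub (by simp))) j i)
    (fun i => place_place_comm hb
      (room_four hab hra.symm hpa.symm hrb.symm hpb.symm hrp (hr'.sub (by simp))) j i)
    (fun g hg => place_sw_comm hb hg hab (hr'.sub (by simp)) hpq hpa.symm hqa.symm hpb.symm
      hqb.symm j)
    (fun g hg => place_sw_comm hb hg hab (hr'.sub (by simp)) hrq hra.symm hqa.symm hrb.symm
      hqb.symm j)).symm

theorem Good.comm_sw_src (he : D.Def e) (hwd : D.WDef w e) (hpq : Apart p q) (hf : D.Def f)
    (hd : Disjoint f e) (hab : Apart a b) (hqa : Apart q a) (hqb : Apart q b)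
    (hfr : Free [p, q, a, b]) : Commute (D.echain p q e w) (D.sw f a b) := by
  obtain ⟨x, hx, hx'⟩ := hfr.fresh
  simp only [List.mem_cons, List.not_mem_nil, or_false, forall_eq_or_imp, forall_eq] at hx
  obtain ⟨hxp, hxq, hxa, hxb⟩ := hx
  rw [← hw.2 x q p e he hwd hxq hxp.symm hpq (hx'.sub (by simp))]
  have c1 : Commute (D.sw e x p) (D.sw f a b) := by
    rw [sw_eq hab]; exact sw_commute_disjoint hb he hf hd.symm x p _
  have c2 := Good.comm_sw hb hw he hwd hxq hf hab hxa hxb hqa hqb (hx'.sub (by simp))
  exact (c1.mul_left c2).mul_left c1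

end

theorem good : ∀ w : List D.ι, Good D w
  | [] => by
    refine ⟨fun p r q e _ _ _ _ _ _ => rfl, fun p q x e _ _ hpq hxp hxq _ => ?_⟩
    rw [echain_nil, echain_nil, sw_move hpq hxp.symm hxq]
  | i :: w => by
    have ih := good w
    have step : ∀ p r q e, D.Def e → D.WDef (i :: w) e → Apart p q → Apart r p → Apart r q →
        Free [r, p, q] → D.chain p r q e (i :: w) =
          D.place i p r * D.echain r q (D.img i e) w * (D.place i p r)⁻¹ := by
      intro p r q e he hwd hpq hrp hrq hfr
      rw [chain_cons, ih.1 r p q _ (def_img hb he i) hwd.2 hrq hrp.symm hpq (hfr.sub (by simp))]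
    have indep : ∀ p r q e, D.Def e → D.WDef (i :: w) e → Apart p q → Apart r p → Apart r q →
        Free [r, p, q] → D.chain p r q e (i :: w) = D.echain p q e (i :: w) := by
      intro p r q e he hwd hpq hrp hrq hfr
      have hpqF : Free [p, q] := hfr.sub (by simp)
      obtain ⟨hs, hsf⟩ := spare_spec hpqF
      refine free_connect (L := [p, q]) (fun r => D.chain p r q e (i :: w)) ?_ (by simp [hrp, hrq])
        hs hfr hsf
      intro a b hab ha hb' hfab
      simp only [List.mem_cons, List.not_mem_nil, or_false, forall_eq_or_imp, forall_eq] at ha hb'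
      show D.chain p a q e (i :: w) = D.chain p b q e (i :: w)
      rw [step p a q e he hwd hpq ha.1 ha.2 (hfab.sub (by simp)),
        step p b q e he hwd hpq hb'.1 hb'.2 (hfab.sub (by simp)),
        braid_tgt hb (x := p) (y := b) (z := a) hb'.1.symm ha.1 hab (hfab.sub (by simp)) i]
      have he' := def_img hb he i
      have hd : D.Def (gran (D.g i) \ D.img i e) := (hb.ran i).sdiff he'
      have hS : D.sw (gran (D.g i)) b a =
          D.sw (D.img i e) b a * D.sw (gran (D.g i) \ D.img i e) b a := by
        rw [← sw_union hb he' hd Set.disjoint_sdiff_right,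
          Set.union_sdiff_cancel (img_subset_ran i e)]
      have c0 : Commute (D.sw (D.img i e) b a) (D.sw (gran (D.g i) \ D.img i e) b a) := by
        rw [sw_eq hab.symm, sw_eq hab.symm]
        exact h_disjoint hb he' hd Set.disjoint_sdiff_right _ _
      have c1 : Commute (D.echain b q (D.img i e) w) (D.place i p a) :=
        Good.comm_place hb ih he' hwd.2 hb'.2 ha.1.symm hb'.1 hab.symm hpq.symm ha.2.symm
          (hfab.sub (by simp)) i
      have c2 : Commute (D.echain a q (D.img i e) w) (D.sw (gran (D.g i) \ D.img i e) b a) :=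
        Good.comm_sw_src hb ih he' hwd.2 ha.2 hd Set.disjoint_sdiff_left hab.symm hb'.2.symm
          ha.2.symm (hfab.sub (by simp))
      have e1 := ih.2 b q a _ he' hwd.2 hb'.2 hab ha.2 (hfab.sub (by simp))
      rw [place_inv hb, hS, mul_inv_rev, mul_inv_rev, place_inv hb, mul_inv_rev, sw_inv, sw_inv,
        ← c0.eq]
      symm
      calc D.place i p a * (D.sw (D.img i e) b a * D.sw (gran (D.g i) \ D.img i e) b a) *
            D.place i p a * D.echain b q (D.img i e) w *
            (D.place i p a * (D.sw (D.img i e) b a * D.sw (gran (D.g i) \ D.img i e) b a *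
              D.place i p a))
          = D.place i p a * (D.sw (D.img i e) b a * D.sw (gran (D.g i) \ D.img i e) b a) *
            (D.place i p a * D.place i p a) * D.echain b q (D.img i e) w *
            (D.sw (D.img i e) b a * D.sw (gran (D.g i) \ D.img i e) b a) * D.place i p a := by
            rw [← mul_assoc (D.place i p a * _ * D.place i p a * _), mul_assoc _ _ (D.place i p a),
              c1.eq]
            group
        _ = D.place i p a * (D.sw (gran (D.g i) \ D.img i e) b a *
              (D.sw (D.img i e) b a * D.echain b q (D.img i e) w * D.sw (D.img i e) b a) *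
              D.sw (gran (D.g i) \ D.img i e) b a) * D.place i p a := by
            rw [place_sq hb, mul_one]
            nth_rewrite 1 [c0.eq]
            group
        _ = _ := by
            rw [e1, ← c2.eq, mul_assoc (D.echain a q (D.img i e) w), sw_sq, mul_one]
    refine ⟨indep, fun p q x e he hwd hpq hxp hxq hfr => ?_⟩
    obtain ⟨r, hr, hfr'⟩ := hfr.fresh
    obtain ⟨r', hr', hfr''⟩ := hfr'.fresh
    simp only [List.mem_cons, List.not_mem_nil, or_false, forall_eq_or_imp, forall_eq] at hr hr'
    obtain ⟨hrx, hrp, hrq⟩ := hr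
    obtain ⟨hr'r, hr'x, hr'p, hr'q⟩ := hr'
    rw [← indep p r q e he hwd hpq hrp hrq (hfr'.sub (by simp)),
      ← indep x r q e he hwd hxq hrx hrq (hfr'.sub (by simp)),
      step p r q e he hwd hpq hrp hrq (hfr'.sub (by simp)),
      step x r q e he hwd hxq hrx hrq (hfr'.sub (by simp))]
    have he' := def_img hb he i
    let g := D.place i p r
    let E := D.echain r q (D.img i e) w
    show D.sw e p x * (g * E * g⁻¹) * D.sw e p x = _
    have cφ : Commute E (D.sw Set.univ p x) :=
      Good.comm_sw hb ih he' hwd.2 hrq def_univ hxp.symm hrp hrx hpq.symm hxq.symm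
        (hfr'.sub (by simp))
    have hd0 : D.Def (gdom (D.g i))ᶜ := (hb.dom i).compl
    have hd1 : D.Def (gdom (D.g i) \ e) := (hb.dom i).sdiff he
    have cX : Commute (g * E * g⁻¹) (D.sw (gdom (D.g i) \ e) p x) := by
      have key := cov2 hb (i := i) (p := p) (p' := x) (t := r) (t' := r')
        (room_four hxp.symm hrp.symm hr'p.symm hrx.symm hr'x.symm hr'r.symm (hfr''.sub (by simp)))
        hd1 Set.sdiff_subset
      have cb : Commute E (D.place i x r') :=
        Good.comm_place hb ih he' hwd.2 hrq hr'x.symm hrx hr'r.symm hxq.symm hr'q.symm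
          (hfr''.sub (by simp)) i
      have cS : Commute E (D.sw (D.img i (gdom (D.g i) \ e)) r r') :=
        Good.comm_sw_src hb ih he' hwd.2 hrq (def_img hb hd1 i)
          (img_disjoint i Set.disjoint_sdiff_left) hr'r.symm hrq.symm hr'q.symm
          (hfr''.sub (by simp))
      have cgb : Commute g (D.place i x r') :=
        place_place_comm hb (room_four hrp.symm hxp.symm hr'p.symm hrx hr'r.symm hr'x.symm
          (hfr''.sub (by simp))) i i
      have e2 : g⁻¹ * D.sw (gdom (D.g i) \ e) p x * g =
          D.place i x r' * D.sw (D.img i (gdom (D.g i) \ e)) r r' * D.place i x r' := by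
        have m : D.place i x r' * g * D.place i x r' = g := by
          rw [← cgb.eq, mul_assoc, place_sq hb, mul_one]
        rw [← key, mul_inv_rev, place_inv hb, place_inv hb]
        calc g * D.sw (gdom (D.g i) \ e) p x * g
            = (D.place i x r' * g * D.place i x r') * D.sw (gdom (D.g i) \ e) p x *
              (D.place i x r' * g * D.place i x r') := by rw [m]
          _ = _ := by group; rfl
      have c : Commute E (g⁻¹ * D.sw (gdom (D.g i) \ e) p x * g) := by
        rw [e2]; exact (cb.mul_right cS).mul_right cb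
      have := c.map (MulAut.conj g).toMonoidHom
      simpa [MulAut.conj_apply, mul_assoc] using this
    have cY : Commute (g * E * g⁻¹) (D.sw (gdom (D.g i))ᶜ p x) := by
      have cg : Commute g (D.sw (gdom (D.g i))ᶜ p x) := by
        rw [sw_eq hxp.symm]
        exact place_comm_dom hb hrp.symm (hfr'.sub (by simp)) hd0 disjoint_compl_left
          (fixCone_vswap _ hrp hrx)
      exact (cg.mul_left (Good.comm_sw hb ih he' hwd.2 hrq hd0 hxp.symm hrp hrx hpq.symm hxq.symm
        (hfr'.sub (by simp)))).mul_left cg.inv_left
    have hsplit : D.sw Set.univ p x =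
        D.sw e p x * (D.sw (gdom (D.g i) \ e) p x * D.sw (gdom (D.g i))ᶜ p x) := by
      rw [← sw_union hb hd1 hd0 (Set.disjoint_left.2 fun s h h' => h' h.1)]
      refine Eq.trans ?_ (sw_union hb he ((D.ctx.field_union hb.empty hd1 hd0 (Set.disjoint_left.2 fun s h h' => h' h.1)).1)
          (Set.disjoint_left.2 fun s h h' => h'.elim (fun h'' => h''.2 h) fun h'' => h'' (hwd.1 h))
        p x)
      congr 1
      ext s
      simp only [Set.mem_univ, Set.mem_union, Set.mem_sdiff, Set.mem_compl_iff, true_iff]
      tauto
    have hX : D.sw Set.univ p x * (g * E * g⁻¹) * (D.sw Set.univ p x)⁻¹ =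
        D.sw e p x * (g * E * g⁻¹) * D.sw e p x := by
      have c := cX.mul_right cY
      rw [hsplit, mul_inv_rev, sw_inv e p x]
      calc _ = D.sw e p x * ((D.sw (gdom (D.g i) \ e) p x * D.sw (gdom (D.g i))ᶜ p x) *
            (g * E * g⁻¹)) * (D.sw (gdom (D.g i) \ e) p x * D.sw (gdom (D.g i))ᶜ p x)⁻¹ *
            D.sw e p x := by group
        _ = _ := by rw [← c.eq]; group
    rw [← hX]
    have eg : D.sw Set.univ p x * g * (D.sw Set.univ p x)⁻¹ = D.place i x r := by
      rw [sw_univ hb hxp.symm]
      exact place_conj hb hrp.symm (hfr'.sub (by simp)) (mapsCone_vswap _)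
        (fixCone_vswap _ hrp hrx) i
    rw [← eg]
    calc _ = (D.sw Set.univ p x * g * (D.sw Set.univ p x)⁻¹) *
          (D.sw Set.univ p x * E * (D.sw Set.univ p x)⁻¹) *
          (D.sw Set.univ p x * g * (D.sw Set.univ p x)⁻¹)⁻¹ := by group
      _ = _ := by rw [← cφ.eq, mul_inv_cancel_right]

/-! ### Consequences -/

variable {p q a b x : List Bool} {e f : Set S} {w : List D.ι}

/-- The spare cone does not matter. -/
theorem chain_eq {r : List Bool} (hpq : Apart p q) (hrp : Apart r p) (hrq : Apart r q)
    (hfr : Free [r, p, q]) (he : D.Def e) (hwd : D.WDef w e) :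
    D.chain p r q e w = D.echain p q e w :=
  (good hb w).1 p r q e he hwd hpq hrp hrq hfr

theorem echain_cons {r : List Bool} {i : D.ι} (hpq : Apart p q) (hrp : Apart r p)
    (hrq : Apart r q) (hfr : Free [r, p, q]) (he : D.Def e) (hwd : D.WDef (i :: w) e) :
    D.echain p q e (i :: w) =
      D.place i p r * D.echain r q (D.img i e) w * (D.place i p r)⁻¹ := by
  rw [← chain_eq hb hpq hrp hrq hfr he hwd, chain_cons,
    chain_eq hb hrq hrp.symm hpq (hfr.sub (by simp)) (def_img hb he i) hwd.2]

/-- Moving the source cone. -/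
theorem echain_src (hpq : Apart p q) (hxp : Apart x p) (hxq : Apart x q) (hfr : Free [x, p, q])
    (he : D.Def e) (hwd : D.WDef w e) :
    D.sw e p x * D.echain p q e w * D.sw e p x = D.echain x q e w :=
  (good hb w).2 p q x e he hwd hpq hxp hxq hfr

theorem echain_comm_sw (hpq : Apart p q) (hab : Apart a b) (hpa : Apart p a) (hpb : Apart p b)
    (hqa : Apart q a) (hqb : Apart q b) (hfr : Free [p, q, a, b]) (he : D.Def e)
    (hwd : D.WDef w e) (hf : D.Def f) : Commute (D.echain p q e w) (D.sw f a b) :=
  Good.comm_sw hb (good hb w) he hwd hpq hf hab hpa hpb hqa hqb hfr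

theorem echain_comm_place (hpq : Apart p q) (hab : Apart a b) (hpa : Apart p a) (hpb : Apart p b)
    (hqa : Apart q a) (hqb : Apart q b) (hfr : Free [p, q, a, b]) (he : D.Def e)
    (hwd : D.WDef w e) (j : D.ι) : Commute (D.echain p q e w) (D.place j a b) :=
  Good.comm_place hb (good hb w) he hwd hpq hab hpa hpb hqa hqb hfr j

theorem echain_comm_sw_src (hpq : Apart p q) (hab : Apart a b) (hqa : Apart q a)
    (hqb : Apart q b) (hfr : Free [p, q, a, b]) (he : D.Def e) (hwd : D.WDef w e) (hf : D.Def f)
    (hd : Disjoint f e) : Commute (D.echain p q e w) (D.sw f a b) :=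
  Good.comm_sw_src hb (good hb w) he hwd hpq hf hd hab hqa hqb hfr

theorem echain_comm_echain {e' : Set S} {w' : List D.ι} (hpq : Apart p q) (hab : Apart a b)
    (hpa : Apart p a) (hpb : Apart p b) (hqa : Apart q a) (hqb : Apart q b)
    (hfr : Free [p, q, a, b]) (he : D.Def e) (hwd : D.WDef w e) (he' : D.Def e')
    (hwd' : D.WDef w' e') : Commute (D.echain p q e w) (D.echain a b e' w') := by
  obtain ⟨r, hr, hr'⟩ := hfr.fresh
  simp only [List.mem_cons, List.not_mem_nil, or_false, forall_eq_or_imp, forall_eq] at hr
  obtain ⟨hrp, hrq, hra, hrb⟩ := hr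
  rw [← chain_eq hb hab hra hrb (hr'.sub (by simp)) he' hwd']
  exact chain_comm_of hb w' a r e' he'
    (fun i => echain_comm_place hb hpq hra.symm hpa hrp.symm hqa hrq.symm (hr'.sub (by simp)) he hwd i)
    (fun i => echain_comm_place hb hpq hra hrp.symm hpa hrq.symm hqa (hr'.sub (by simp)) he hwd i)
    (fun g hg => echain_comm_sw hb hpq hab hpa hpb hqa hqb hfr he hwd hg)
    (fun g hg => echain_comm_sw hb hpq hrb hrp.symm hpb hrq.symm hqb (hr'.sub (by simp)) he hwd hg)

/-- Moving the target cone. -/
theorem echain_tgt (hpq : Apart p q) (hxp : Apart x p) (hxq : Apart x q) (hfr : Free [x, p, q])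
    (he : D.Def e) (hwd : D.WDef w e) :
    D.sw (D.wimg w e) q x * D.echain p q e w * D.sw (D.wimg w e) q x = D.echain p x e w := by
  induction w generalizing p e with
  | nil =>
    rw [echain_nil, echain_nil, sw_symm e p q, sw_symm e p x]
    exact sw_move hpq.symm hxq.symm hxp
  | cons i w ih =>
    obtain ⟨r, hr, hr'⟩ := hfr.fresh
    simp only [List.mem_cons, List.not_mem_nil, or_false, forall_eq_or_imp, forall_eq] at hr
    obtain ⟨hrx, hrp, hrq⟩ := hr
    have he' := def_img hb he i
    rw [echain_cons hb hpq hrp hrq (hr'.sub (by simp)) he hwd,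
      echain_cons hb hxp.symm hrp hrx (hr'.sub (by simp)) he hwd,
      ← ih hrq hrx.symm (hr'.sub (by simp)) he' hwd.2]
    have c : Commute (D.place i p r) (D.sw (D.wimg (i :: w) e) q x) :=
      place_sw_comm hb (def_wimg hb he _) hrp.symm (hr'.sub (by simp)) hxq.symm hpq hxp.symm hrq hrx i
    show D.sw (D.wimg (i :: w) e) q x * _ * _ = _ * (D.sw (D.wimg (i :: w) e) q x * _ *
      D.sw (D.wimg (i :: w) e) q x) * _
    calc _ = (D.sw (D.wimg (i :: w) e) q x * D.place i p r) * D.echain r q (D.img i e) w *
          ((D.place i p r)⁻¹ * D.sw (D.wimg (i :: w) e) q x) := by group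
      _ = _ := by rw [← c.eq, c.inv_left.eq]; group

theorem echain_comm_sw_tgt (hpq : Apart p q) (hab : Apart a b) (hpa : Apart p a)
    (hpb : Apart p b) (hfr : Free [p, q, a, b]) (he : D.Def e) (hwd : D.WDef w e) (hf : D.Def f)
    (hd : Disjoint f (D.wimg w e)) : Commute (D.echain p q e w) (D.sw f a b) := by
  obtain ⟨y, hy, hy'⟩ := hfr.fresh
  simp only [List.mem_cons, List.not_mem_nil, or_false, forall_eq_or_imp, forall_eq] at hy
  obtain ⟨hyp, hyq, hya, hyb⟩ := hy
  rw [← echain_tgt hb hyp.symm hpq.symm hyq.symm (hy'.sub (by simp)) he hwd]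
  have c1 : Commute (D.sw (D.wimg w e) y q) (D.sw f a b) := by
    rw [sw_eq hab]; exact sw_commute_disjoint hb (def_wimg hb he w) hf hd.symm y q _
  have c2 := echain_comm_sw hb hyp.symm hab hpa hpb hya hyb (hy'.sub (by simp)) he hwd hf
  exact (c1.mul_left c2).mul_left c1

theorem echain_comm_sw_disj (hpq : Apart p q) (hfr : Free [p, q, a, b]) (he : D.Def e)
    (hwd : D.WDef w e) (hf : D.Def f) (hd : Disjoint f e) (hd' : Disjoint f (D.wimg w e)) :
    Commute (D.echain p q e w) (D.sw f a b) := by
  by_cases hab : Apart a b
  swap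
  · rw [show D.sw f a b = 1 from dif_neg hab]; exact Commute.one_right _
  obtain ⟨y, hy, hy'⟩ := hfr.fresh
  simp only [List.mem_cons, List.not_mem_nil, or_false, forall_eq_or_imp, forall_eq] at hy
  obtain ⟨hyp, hyq, hya, hyb⟩ := hy
  rw [← echain_tgt hb hyp.symm hpq.symm hyq.symm (hy'.sub (by simp)) he hwd]
  have c1 : Commute (D.sw (D.wimg w e) y q) (D.sw f a b) := by
    rw [sw_eq hab]; exact sw_commute_disjoint hb (def_wimg hb he w) hf hd'.symm y q _
  have c2 := echain_comm_sw_src hb hyp.symm hab hya hyb (hy'.sub (by simp)) he hwd hf hd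
  exact (c1.mul_left c2).mul_left c1

theorem echain_empty (p q : List Bool) (w : List D.ι) : D.echain p q ∅ w = 1 := by
  suffices h : ∀ p r, D.chain p r q ∅ w = 1 from h p _
  induction w with
  | nil => intro p r; rw [chain_nil, sw_empty hb]
  | cons i w ih => intro p r; rw [chain_cons, img_empty, ih, mul_one, mul_inv_cancel]

theorem echain_union (he : D.Def e) (hf : D.Def f) (hd : Disjoint e f) (p q : List Bool)
    (w : List D.ι) : D.echain p q (e ∪ f) w = D.echain p q e w * D.echain p q f w := by
  suffices h : ∀ p r, D.chain p r q (e ∪ f) w = D.chain p r q e w * D.chain p r q f w from h p _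
  induction w generalizing e f with
  | nil => intro p r; exact sw_union hb he hf hd p q
  | cons i w ih =>
    intro p r
    rw [chain_cons, chain_cons, chain_cons, img_union,
      ih (def_img hb he i) (def_img hb hf i) (img_disjoint i hd)]
    group

/-- The target endpoint moves along a generator. -/
theorem echain_tgt_move {i : D.ι} (hpq : Apart p q) (hxp : Apart x p) (hxq : Apart x q)
    (hfr : Free [x, p, q]) (he : D.Def e) (hwd : D.WDef w e)
    (hsub : D.wimg w e ⊆ gdom (D.g i)) :
    D.place i q x * D.echain p q e w * (D.place i q x)⁻¹ = D.echain p x e (w ++ [i]) := by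
  induction w generalizing p e with
  | nil =>
    obtain ⟨r, hr, hr'⟩ := hfr.fresh
    simp only [List.mem_cons, List.not_mem_nil, or_false, forall_eq_or_imp, forall_eq] at hr
    obtain ⟨hrx, hrp, hrq⟩ := hr
    have hwd1 : D.WDef [i] e := ⟨hsub, trivial⟩
    rw [echain_nil, List.nil_append,
      echain_cons hb hxp.symm hrp hrx (hr'.sub (by simp)) he hwd1, echain_nil]
    have key := cov2 hb (i := i) (p := p) (p' := q) (t := r) (t' := x)
      (room_four hpq hrp.symm hxp.symm hrq.symm hxq.symm hrx (hr'.sub (by simp))) he hsub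
    have c : Commute (D.place i p r) (D.place i q x) :=
      place_place_comm hb (room_four hrp.symm hpq hxp.symm hrq hrx hxq.symm (hr'.sub (by simp))) i i
    rw [← key, mul_inv_rev, place_inv hb, place_inv hb]
    calc D.place i q x * D.sw e p q * D.place i q x
        = (D.place i p r * D.place i p r) * D.place i q x * D.sw e p q * D.place i q x *
          (D.place i p r * D.place i p r) := by rw [place_sq hb]; group
      _ = _ := by group
  | cons k w ih =>
    obtain ⟨r, hr, hr'⟩ := hfr.fresh
    simp only [List.mem_cons, List.not_mem_nil, or_false, forall_eq_or_imp, forall_eq] at hr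
    obtain ⟨hrx, hrp, hrq⟩ := hr
    have hwd' : D.WDef (k :: w ++ [i]) e := (wdef_append (k :: w) [i] e).2 ⟨hwd, hsub, trivial⟩
    have hih := ih hrq hrx.symm (hr'.sub (by simp)) (def_img hb he k) hwd.2 hsub
    rw [echain_cons hb hpq hrp hrq (hr'.sub (by simp)) he hwd, List.cons_append,
      echain_cons hb (w := w ++ [i]) hxp.symm hrp hrx (hr'.sub (by simp)) he hwd', ← hih]
    have c : Commute (D.place k p r) (D.place i q x) :=
      place_place_comm hb (room_four hrp.symm hpq hxp.symm hrq hrx hxq.symm (hr'.sub (by simp))) k i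
    calc _ = (D.place i q x * D.place k p r) * D.echain r q (D.img k e) w *
          ((D.place k p r)⁻¹ * (D.place i q x)⁻¹) := by group
      _ = _ := by rw [← c.eq, c.inv_inv.eq]; group

/-- Composition through an intermediate cone. -/
theorem echain_concat {v : List D.ι} (hpq : Apart p q) (hxp : Apart x p) (hxq : Apart x q)
    (hfr : Free [x, p, q]) (he : D.Def e) (hu : D.WDef w e) (hv : D.WDef v (D.wimg w e)) :
    D.echain p x e w * D.echain x q (D.wimg w e) v * D.echain p x e w =
      D.echain p q e (w ++ v) := by
  induction w generalizing p e with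
  | nil =>
    rw [echain_nil, List.nil_append, sw_symm e p x]
    exact echain_src hb hxq hxp.symm hpq (hfr.sub (by simp)) he hv
  | cons i w ih =>
    obtain ⟨r, hr, hr'⟩ := hfr.fresh
    simp only [List.mem_cons, List.not_mem_nil, or_false, forall_eq_or_imp, forall_eq] at hr
    obtain ⟨hrx, hrp, hrq⟩ := hr
    have hih := ih hrq hrx.symm (hr'.sub (by simp)) (def_img hb he i) hu.2 hv
    rw [echain_cons hb hxp.symm hrp hrx (hr'.sub (by simp)) he hu, List.cons_append,
      echain_cons hb (w := w ++ v) hpq hrp hrq (hr'.sub (by simp)) he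
        ((wdef_append (i :: w) v e).2 ⟨hu, hv⟩), ← hih]
    have c : Commute (D.echain x q (D.wimg (i :: w) e) v) (D.place i p r) :=
      echain_comm_place hb hxq hrp.symm hxp hrx.symm hpq.symm hrq.symm (hr'.sub (by simp))
        (def_wimg hb he _) hv i
    have e2 : (D.place i p r)⁻¹ * D.echain x q (D.wimg (i :: w) e) v * D.place i p r =
        D.echain x q (D.wimg w (D.img i e)) v := by
      rw [← c.inv_right.eq, inv_mul_cancel_right]; rfl
    calc _ = D.place i p r * D.echain r x (D.img i e) w *
          ((D.place i p r)⁻¹ * D.echain x q (D.wimg (i :: w) e) v * D.place i p r) *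
          D.echain r x (D.img i e) w * (D.place i p r)⁻¹ := by group
      _ = _ := by rw [e2]; group

/-- A chain moves a transposition at its source to its target. -/
theorem echain_LB (hpq : Apart p q) (hxp : Apart x p) (hxq : Apart x q) (hfr : Free [x, p, q])
    (he : D.Def e) (hwd : D.WDef w e) :
    D.echain p q e w * D.sw e p x * D.echain p q e w = D.echain x q e w := by
  induction w generalizing p x e with
  | nil =>
    rw [echain_nil, echain_nil, sw_move hxp.symm hpq hxq.symm, sw_symm]
  | cons i w ih =>
    obtain ⟨r, hr, hr'⟩ := hfr.fresh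
    obtain ⟨y, hy, hy'⟩ := hr'.fresh
    simp only [List.mem_cons, List.not_mem_nil, or_false, forall_eq_or_imp, forall_eq] at hr hy
    obtain ⟨hrx, hrp, hrq⟩ := hr
    obtain ⟨hyr, hyx, hyp, hyq⟩ := hy
    have he' := def_img hb he i
    have hX := echain_cons hb (w := w) (i := i) hxq hyx hyq (hy'.sub (by simp)) he hwd
    have hih := ih hrq hyr hyq (hy'.sub (by simp)) he' hwd.2
    have key := cov2 hb (i := i) (p := p) (p' := x) (t := r) (t' := y)
      (room_four hxp.symm hrp.symm hyp.symm hrx.symm hyx.symm hyr.symm (hy'.sub (by simp))) he hwd.1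
    have cgb : Commute (D.place i p r) (D.place i x y) :=
      place_place_comm hb (room_four hrp.symm hxp.symm hyp.symm hrx hyr.symm hyx.symm
        (hy'.sub (by simp))) i i
    have cEb : Commute (D.echain r q (D.img i e) w) (D.place i x y) :=
      echain_comm_place hb hrq hyx.symm hrx hyr.symm hxq.symm hyq.symm (hy'.sub (by simp)) he' hwd.2 i
    have cXg : Commute (D.echain x q e (i :: w)) (D.place i p r) :=
      echain_comm_place hb hxq hrp.symm hxp hrx.symm hpq.symm hrq.symm (hy'.sub (by simp)) he hwd i
    rw [echain_cons hb hpq hrp hrq (hr'.sub (by simp)) he hwd, place_inv hb]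
    have e2 : D.place i p r * D.sw e p x * D.place i p r =
        D.place i x y * D.sw (D.img i e) r y * D.place i x y := by
      have m : D.place i x y * D.place i p r * D.place i x y = D.place i p r := by
        rw [← cgb.eq, mul_assoc, place_sq hb, mul_one]
      rw [← key, mul_inv_rev, place_inv hb, place_inv hb]
      calc D.place i p r * D.sw e p x * D.place i p r
          = (D.place i x y * D.place i p r * D.place i x y) * D.sw e p x *
            (D.place i x y * D.place i p r * D.place i x y) := by rw [m]
        _ = _ := by group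
    calc _ = D.place i p r * (D.echain r q (D.img i e) w *
          (D.place i p r * D.sw e p x * D.place i p r) * D.echain r q (D.img i e) w) *
          D.place i p r := by group
      _ = D.place i p r * (D.place i x y * (D.echain r q (D.img i e) w * D.sw (D.img i e) r y *
          D.echain r q (D.img i e) w) * D.place i x y) * D.place i p r := by
          rw [e2]
          calc _ = D.place i p r * ((D.echain r q (D.img i e) w * D.place i x y) *
                D.sw (D.img i e) r y * (D.place i x y * D.echain r q (D.img i e) w)) *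
                D.place i p r := by group
            _ = D.place i p r * ((D.place i x y * D.echain r q (D.img i e) w) *
                D.sw (D.img i e) r y * (D.echain r q (D.img i e) w * D.place i x y)) *
                D.place i p r := congrArg₂ (fun A B => D.place i p r *
                  (A * D.sw (D.img i e) r y * B) * D.place i p r) cEb.eq cEb.eq.symm
            _ = _ := by group
      _ = D.place i p r * D.echain x q e (i :: w) * D.place i p r := by
          rw [hih, hX, place_inv hb]
      _ = _ := by rw [← cXg.eq, mul_assoc, place_sq hb, mul_one]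

theorem echain_conj {v : Vgrp S} {p' q' : List Bool} (hpq : Apart p q) (hpq' : Apart p' q')
    (hfr : Free [p, q]) (hfr' : Free [p', q']) (hp : MapsCone p p' v) (hq : MapsCone q q' v)
    (he : D.Def e) (hwd : D.WDef w e) :
    D.φ v * D.echain p q e w * (D.φ v)⁻¹ = D.echain p' q' e w := by
  induction w generalizing p p' e with
  | nil => rw [echain_nil, echain_nil, sw_conj hb he hpq hpq' hp hq]
  | cons i w ih =>
    obtain ⟨r, r', hr, hrp, hrq, hfr1, hrp', hrq', hfr2⟩ := exists_spare_image hp hq hfr hfr'
    rw [echain_cons hb hpq hrp hrq hfr1 he hwd, echain_cons hb hpq' hrp' hrq' hfr2 he hwd,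
      ← ih hrq hrq' (hfr1.sub (by simp)) (hfr2.sub (by simp)) hr (def_img hb he i) hwd.2,
      ← place_conj hb (v := v) hrp.symm (hfr1.sub (by simp)) hp hr i]
    group

theorem echain_halve (hpq : Apart p q) (hfr : Free [p, q]) (he : D.Def e) (hwd : D.WDef w e) :
    D.echain p q e w = D.echain (p ++ [false]) (q ++ [false]) e w *
      D.echain (p ++ [true]) (q ++ [true]) e w := by
  induction w generalizing p e with
  | nil => rw [echain_nil, echain_nil, echain_nil, ← sw_halve hpq]
  | cons i w ih =>
    obtain ⟨r, hr, hr'⟩ := hfr.fresh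
    simp only [List.mem_cons, List.not_mem_nil, or_false, forall_eq_or_imp, forall_eq] at hr
    obtain ⟨hrp, hrq⟩ := hr
    have hF : ∀ c : Bool, Free [r ++ [c], p ++ [c], q ++ [c]] := fun c => hr'.mono (by simp)
    have he' := def_img hb he i
    rw [echain_cons hb hpq hrp hrq hr' he hwd, ih hrq (hr'.sub (by simp)) he' hwd.2,
      echain_cons hb (hpq.append _ _) (hrp.append _ _) (hrq.append _ _) (hF false) he hwd,
      echain_cons hb (hpq.append _ _) (hrp.append _ _) (hrq.append _ _) (hF true) he hwd,
      place_halve hb hrp.symm (hr'.sub (by simp)), place_inv hb, place_inv hb, mul_inv_rev,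
      place_inv hb, place_inv hb]
    have xx := apart_bits p
    have yy := apart_bits q
    have zz := apart_bits r
    have pp := place_place_comm hb (a := p ++ [false]) (b := r ++ [false]) (c := p ++ [true])
      (d := r ++ [true]) (room_four (hrp.symm.append _ _) xx (hrp.symm.append _ _) (hrp.append _ _)
        zz (hrp.symm.append _ _) (hr'.mono (by simp))) i i
    have p0 : Commute (D.place i (p ++ [true]) (r ++ [true]))
        (D.echain (r ++ [false]) (q ++ [false]) (D.img i e) w) :=
      (echain_comm_place hb (hrq.append _ _) (hrp.symm.append _ _) (hrp.append _ _) zz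
        (hpq.symm.append _ _) (hrq.symm.append _ _) (hr'.mono (by simp)) he' hwd.2 i).symm
    have p1 : Commute (D.echain (r ++ [true]) (q ++ [true]) (D.img i e) w)
        (D.place i (p ++ [false]) (r ++ [false])) :=
      echain_comm_place hb (hrq.append _ _) (hrp.symm.append _ _) (hrp.append _ _) zz.symm
        (hpq.symm.append _ _) (hrq.symm.append _ _) (hr'.mono (by simp)) he' hwd.2 i
    rw [← pp.eq]
    exact mul_four_comm pp.symm p0 p1

end Setup

end Vale.Agent.P193.Calc
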