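import Vale.Agent.P193.Full.Calc.Maps.Place

/-! Following cones along the group: every trivial-coefficient element carries long cones
prefix-wise, and a generator carries a long cone over a definable set, split along the domain or
the range, to one cone. -/

namespace Vale.Agent.P193.Calc

open Classical

variable {S : Type}

/-- The zero stream. -/
def cnZero : Cn := ⟨fun _ => false, 0, fun _ _ => rfl⟩

/-- A cone and a point are determined by the embedding of the streams. -/
theorem pre_fun_injective {p q : List Bool} {s t : S}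
    (h : ∀ f, (hv S).pre p (f, s) = (hv S).pre q (f, t)) : p = q ∧ s = t := by
  have key : ∀ {p q : List Bool} {s t : S}, p.length ≤ q.length →
      (∀ f, (hv S).pre p (f, s) = (hv S).pre q (f, t)) → p = q ∧ s = t := by
    intro p q s t hl h
    obtain ⟨r, rfl, h0⟩ := pre_eq_prefix hl (h cnZero)
    cases r with
    | nil => exact ⟨(List.append_nil p).symm, congrArg Prod.snd h0⟩
    | cons c r =>
      have h1 := h (cnCons (!c) cnZero)
      rw [pre_append] at h1
      have h2 := pre_injective p h1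
      exact absurd (show (hv S).pre [!c] (cnZero, s) = (hv S).pre (c :: r) _ from h2)
        (incomp_cons (by simp) _ _ _ _)
  rcases le_total p.length q.length with hl | hl
  · exact key hl h
  · obtain ⟨h1, h2⟩ := key hl fun f => (h f).symm
    exact ⟨h1.symm, h2.symm⟩

/-- Cones that are not apart share a point over every element. -/
theorem pre_common {p q : List Bool} (h : ¬ Apart p q) (s : S) :
    ∃ f g, (hv S).pre p (f, s) = (hv S).pre q (g, s) := by
  rcases not_and_or.1 h with h | h <;> obtain ⟨r, rfl⟩ := not_not.1 h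
  · exact ⟨cnPre r cnZero, cnZero, by rw [pre_append, hv_pre r]⟩
  · exact ⟨cnZero, cnPre r cnZero, by rw [pre_append, hv_pre r]⟩

/-- Long cones leave room beside the two colours. -/
theorem free_long {p q : List Bool} (hp : 3 ≤ p.length) (hq : 3 ≤ q.length) :
    Free [p, q, colA, colB] := by
  match p, q, hp, hq with
  | p₀ :: p₁ :: p₂ :: p', q₀ :: q₁ :: q₂ :: q', _, _ =>
    have key : ∀ a₁ a₂ b₁ b₂ : Bool,
        ∃ c d : Bool, ¬(c = a₁ ∧ d = a₂) ∧ ¬(c = b₁ ∧ d = b₂) := by decide
    obtain ⟨c, d, h1, h2⟩ := key p₁ p₂ q₁ q₂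
    have ap : ∀ {e₀ e₁ e₂ : Bool} (l : List Bool), ¬(c = e₁ ∧ d = e₂) →
        Apart [true, c, d] (e₀ :: e₁ :: e₂ :: l) := by
      intro e₀ e₁ e₂ l hne
      constructor <;> intro e <;> simp only [List.cons_prefix_cons, List.prefix_nil] at e
      · exact hne ⟨e.2.1, e.2.2.1⟩
      · exact hne ⟨e.2.1.symm, e.2.2.1.symm⟩
    refine ⟨[true, c, d], ?_⟩
    simp only [List.mem_cons, List.not_mem_nil, or_false, forall_eq_or_imp, forall_eq]
    exact ⟨ap _ h1, ap _ h2, apart_heads (by decide) _ _, apart_heads (by decide) _ _⟩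

/-- A trivial-coefficient element carries every long cone prefix-wise, apart cones to apart
cones. -/
theorem vgrp_cones (v : Vgrp S) : ∃ (n : ℕ) (F : List Bool → List Bool), ∀ p, n ≤ p.length →
    p.length ≤ (F p).length + n ∧ MapsCone p (F p) v ∧
      ∀ q, n ≤ q.length → Apart p q → Apart (F p) (F q) := by
  by_cases hS : IsEmpty S
  · exact ⟨0, id, fun p _ => ⟨by simp, fun x => isEmptyElim x.2, fun _ _ h => h⟩⟩
  obtain ⟨s₀⟩ := not_isEmpty_iff.1 hS
  obtain ⟨l, hl, he⟩ := mem_swapGroup_iff.1 v.2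
  obtain ⟨n, hn⟩ : ∃ n, ∀ t ∈ l, t.1.length ≤ n :=
    ⟨(l.map fun t => t.1.length).sum, fun t ht =>
      le_list_sum (List.mem_map_of_mem (f := fun t : Dat (Sp S) => t.1.length) ht)⟩
  have key : ∀ p : List Bool, n ≤ p.length →
      ∃ p', p.length ≤ p'.length + n ∧ MapsCone p p' v := by
    intro p hp
    have h0 : ((hv S).pre p (cnZero, s₀), (v : Equiv.Perm (Sp S)) ((hv S).pre p (cnZero, s₀))) ∈
        unionOf (hv S) l := by rw [← he]; rfl
    obtain ⟨t, ht, hpc⟩ := h0
    obtain ⟨a, b, hab, e⟩ := mem_piece.1 hpc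
    have hm : t.2.2 = gid Set.univ := (inMon_empty (hl t ht)).resolve_right fun h => by
      rw [h] at hab; exact hab
    obtain ⟨r, hr, -⟩ := pre_eq_prefix ((hn t ht).trans hp) (Prod.ext_iff.1 e).1.symm
    refine ⟨t.2.1 ++ r, ?_, fun x => ?_⟩
    · have := hn t ht
      simp only [hr, List.length_append]
      omega
    · have h1 : ((hv S).pre p x, (hv S).pre (t.2.1 ++ r) x) ∈
          graphOf (v : Equiv.Perm (Sp S)) := by
        rw [he]
        refine ⟨t, ht, ?_⟩
        rw [hr, pre_append, pre_append]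
        exact piece_mem (by rw [hm]; exact ⟨rfl, trivial⟩)
      exact h1
  refine ⟨n, fun p => if h : n ≤ p.length then (key p h).choose else p, fun p hp => ?_⟩
  simp only [dif_pos hp]
  refine ⟨(key p hp).choose_spec.1, (key p hp).choose_spec.2, fun q hq hpq => ?_⟩
  simp only [dif_pos hq]
  by_contra hne
  obtain ⟨f, g, e⟩ := pre_common hne s₀
  rw [← (key p hp).choose_spec.2, ← (key q hq).choose_spec.2] at e
  exact hpq.incomp _ _ ((v : Equiv.Perm (Sp S)).injective e)

/-- The two halves of the standard pair of colours are images of the pair. -/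
theorem exists_halver (c : Bool) : ∃ k : Vgrp S,
    MapsCone colA (colA ++ [c]) k ∧ MapsCone colB (colB ++ [c]) k :=
  exists_place (colAB.append _ _) (free_cols.mono fun p hp => by
    rcases List.mem_cons.1 hp with rfl | hp
    · exact ⟨colA, by simp, List.prefix_append _ _⟩
    · rw [List.mem_singleton.1 hp]; exact ⟨colB, by simp, List.prefix_append _ _⟩)

namespace Setup

variable {D : Setup S} {i j : D.ι} {e e₁ e' : Set S} {p q p' : List Bool} {u u' w : List D.ι}
  {s s' t : S}

/-! ### Graphs of words -/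

theorem mem_wgraph_nil : (s, t) ∈ D.wgraph [] ↔ s = t :=
  ⟨fun h => h.1, fun h => ⟨h, trivial⟩⟩

theorem mem_wgraph_cons :
    (s, t) ∈ D.wgraph (i :: w) ↔ ∃ r, (s, r) ∈ D.g i ∧ (r, t) ∈ D.wgraph w := Iff.rfl

theorem mem_wgraph_one : (s, t) ∈ D.wgraph [i] ↔ (s, t) ∈ D.g i :=
  ⟨fun ⟨r, h, h'⟩ => by obtain rfl : r = t := mem_wgraph_nil.1 h'; exact h,
    fun h => ⟨t, h, mem_wgraph_nil.2 rfl⟩⟩

theorem mem_wgraph_append (w₁ w₂ : List D.ι) :
    (s, t) ∈ D.wgraph (w₁ ++ w₂) ↔ ∃ r, (s, r) ∈ D.wgraph w₁ ∧ (r, t) ∈ D.wgraph w₂ := by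
  induction w₁ generalizing s with
  | nil => exact ⟨fun h => ⟨s, mem_wgraph_nil.2 rfl, h⟩,
      fun ⟨r, h, h'⟩ => by obtain rfl : s = r := mem_wgraph_nil.1 h; exact h'⟩
  | cons k w₁ ih =>
    rw [List.cons_append, mem_wgraph_cons]
    constructor
    · rintro ⟨r, h, h'⟩
      obtain ⟨r', h1, h2⟩ := ih.1 h'
      exact ⟨r', ⟨r, h, h1⟩, h2⟩
    · rintro ⟨r', ⟨r, h, h1⟩, h2⟩
      exact ⟨r, h, ih.2 ⟨r', h1, h2⟩⟩

theorem wgraph_pb (w : List D.ι) : IsPB (D.wgraph w) := by
  induction w with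
  | nil => exact ⟨fun x y z h h' => h.1.symm.trans h'.1, fun x y z h h' => h.1.trans h'.1.symm⟩
  | cons k w ih =>
    refine ⟨fun x y z ⟨r, h, h1⟩ ⟨r', h', h2⟩ => ?_, fun x y z ⟨r, h, h1⟩ ⟨r', h', h2⟩ => ?_⟩
    · obtain rfl := (D.g_pb k).1 _ _ _ h h'
      exact ih.1 _ _ _ h1 h2
    · obtain rfl := ih.2 _ _ _ h1 h2
      exact (D.g_pb k).2 _ _ _ h h'

theorem mem_wimg (w : List D.ι) : t ∈ D.wimg w e ↔ ∃ s ∈ e, (s, t) ∈ D.wgraph w := by
  induction w generalizing e with
  | nil => exact ⟨fun h => ⟨t, h, mem_wgraph_nil.2 rfl⟩,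
      fun ⟨s, hs, h⟩ => by obtain rfl : s = t := mem_wgraph_nil.1 h; exact hs⟩
  | cons k w ih =>
    refine (ih (e := D.img k e)).trans ?_
    exact ⟨fun ⟨r, ⟨s, hs, h⟩, h'⟩ => ⟨s, hs, r, h, h'⟩,
      fun ⟨s, hs, r, h, h'⟩ => ⟨r, ⟨s, hs, h⟩, h'⟩⟩

theorem wdef_exists (hw : D.WDef w e) (hs : s ∈ e) : ∃ t, (s, t) ∈ D.wgraph w := by
  induction w generalizing e s with
  | nil => exact ⟨s, mem_wgraph_nil.2 rfl⟩
  | cons k w ih =>
    obtain ⟨r, hr⟩ := hw.1 hs
    obtain ⟨t, ht⟩ := ih hw.2 ⟨s, hs, hr⟩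
    exact ⟨t, r, hr, ht⟩

theorem exists_reverse (hb : D.Base) (w : List D.ι) :
    ∃ w' : List D.ι, ∀ s t, (s, t) ∈ D.wgraph w' ↔ (t, s) ∈ D.wgraph w := by
  induction w with
  | nil => exact ⟨[], fun s t => by rw [mem_wgraph_nil, mem_wgraph_nil]; exact eq_comm⟩
  | cons k w ih =>
    obtain ⟨w', hw'⟩ := ih
    obtain ⟨j, hj, -⟩ := hb.inv k
    refine ⟨w' ++ [j], fun s t => ?_⟩
    rw [mem_wgraph_append, mem_wgraph_cons]
    refine exists_congr fun r => ?_
    rw [hw', mem_wgraph_one, hj]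
    exact and_comm

/-! ### The motion of one endpoint -/

namespace EndMove

variable (h : D.EndMove i p e p' e' u u')
include h

theorem eq_wimg : e' = D.wimg u' e := by cases h <;> rfl

theorem wdef_fwd : D.WDef u' e := by
  cases h with
  | fix => trivial
  | toB a j _ he => exact ⟨he, trivial⟩
  | toA a j _ he hj => exact ⟨by rw [gdom_partner hj]; exact he, trivial⟩

theorem wdef_back : D.WDef u e' := by
  cases h with
  | fix => trivial
  | toB a j _ _ hj => exact ⟨by rw [gdom_partner hj]; exact img_subset_ran i e, trivial⟩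
  | toA a j _ _ hj => exact ⟨by rw [← gran_partner hj]; exact img_subset_ran j e, trivial⟩

theorem back : D.wimg u e' = e := by
  cases h with
  | fix => rfl
  | toB a j _ he hj => exact img_partner hj he
  | toA a j _ he hj =>
    exact img_partner (show D.g i = ginv (D.g j) by rw [hj]; rfl)
      (by rw [gdom_partner hj]; exact he)

theorem graph : (s', s) ∈ D.wgraph u ↔ (s, s') ∈ D.wgraph u' := by
  cases h with
  | fix => rw [mem_wgraph_nil, mem_wgraph_nil]; exact eq_comm
  | toB a j _ _ hj => rw [mem_wgraph_one, mem_wgraph_one, hj]; exact Iff.rfl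
  | toA a j _ _ hj => rw [mem_wgraph_one, mem_wgraph_one, hj]; exact Iff.rfl

theorem back_mem (hs' : s' ∈ e') (hg : (s', s) ∈ D.wgraph u) : s ∈ e :=
  h.back ▸ (mem_wimg u).2 ⟨s', hs', hg⟩

theorem fwd_back (he₁ : e₁ ⊆ e') : D.wimg u' (D.wimg u e₁) = e₁ := by
  ext r
  rw [mem_wimg]
  constructor
  · rintro ⟨s, hs, hsr⟩
    obtain ⟨r', hr', hrs⟩ := (mem_wimg u).1 hs
    exact (wgraph_pb u).2 _ _ _ hrs (h.graph.2 hsr) ▸ hr'
  · intro hr
    obtain ⟨s, hs⟩ := wdef_exists h.wdef_back (he₁ hr)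
    exact ⟨s, (mem_wimg u).2 ⟨r, hr, hs⟩, h.graph.1 hs⟩

theorem length_eq : p'.length = p.length := by
  cases h with
  | fix => rfl
  | toB a j hp => simp [hp, colA, colB]
  | toA a j hp => simp [hp, colA, colB]

theorem restrict (he₁ : e₁ ⊆ e) : D.EndMove i p e₁ p' (D.wimg u' e₁) u u' := by
  cases h with
  | fix hA hB =>
    exact .fix (hA.imp id (Or.imp (And.imp id fun d => d.mono_left he₁) id))
      (hB.imp id (Or.imp (And.imp id fun d => d.mono_left he₁) id))
  | toB a j hp he hj hG => exact .toB a j hp (he₁.trans he) hj hG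
  | toA a j hp he hj hG => exact .toA a j hp (he₁.trans he) hj hG

/-- The generator moves the points of the cone as the endpoint moves. -/
theorem π_apply (hs : s ∈ e) (hg : (s, s') ∈ D.wgraph u') (f : Cn) :
    D.π (D.G i) ((hv S).pre p (f, s)) = (hv S).pre p' (f, s') := by
  rw [D.π_G_eq]
  cases h with
  | fix hA hB =>
    obtain rfl : s = s' := mem_wgraph_nil.1 hg
    refine gswap_fix colAB (fun f' t' ht' he => ?_) (fun f' t' ht' he => ?_)
    · rcases hA with hA | ⟨-, hd⟩ | hA
      · exact hA.symm.incomp _ _ he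
      · have e1 := congrArg Prod.snd he
        rw [hv_pre_snd, hv_pre_snd] at e1
        exact Set.disjoint_left.1 hd hs ((show s = t' from e1) ▸ ht')
      · exact (colAB.symm.of_prefix hA List.prefix_rfl).incomp _ _ he
    · rcases hB with hB | ⟨-, hd⟩ | hB
      · exact hB.symm.incomp _ _ he
      · have e1 := congrArg Prod.snd he
        rw [hv_pre_snd, hv_pre_snd] at e1
        exact Set.disjoint_left.1 hd hs ((show s = t' from e1) ▸ ht')
      · exact (colAB.of_prefix hB List.prefix_rfl).incomp _ _ he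
  | toB a j hp he hj =>
    rw [hp, pre_append, pre_append, hv_pre a, hv_pre a]
    exact gswap_fwd colAB (mem_wgraph_one.1 hg) _
  | toA a j hp he hj =>
    rw [hp, pre_append, pre_append, hv_pre a, hv_pre a]
    refine gswap_bwd colAB ?_ _
    have h1 := mem_wgraph_one.1 hg
    rw [hj] at h1
    exact h1

end EndMove

/-- A property closed under disjoint unions holds of a definable set as soon as it holds of all
its parts on which the endpoint moves in one way. -/
theorem endMove_split (hb : D.Base) (i : D.ι) (he : D.Def e) (hp : 3 ≤ p.length)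
    (P : Set S → Prop)
    (union : ∀ a b, a ⊆ e → b ⊆ e → D.Def a → D.Def b → Disjoint a b → P a → P b → P (a ∪ b))
    (step : ∀ e₁, e₁ ⊆ e → D.Def e₁ → ∀ p' e' u u', D.EndMove i p e₁ p' e' u u' → P e₁) :
    P e := by
  obtain ⟨j, hj, hG⟩ := hb.inv i
  have split : ∀ c : Set S, D.Def c → P (e ∩ c) → P (e \ c) → P e := by
    intro c hc h1 h2
    have := union _ _ Set.inter_subset_left Set.sdiff_subset (he.inter hc) (he.sdiff hc)
      Set.disjoint_sdiff_inter.symm h1 h2
    rwa [Set.inter_union_sdiff] at this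
  by_cases hA : colA <+: p
  · have hB : Apart colB p := colAB.symm.of_prefix List.prefix_rfl hA
    obtain ⟨a, ha⟩ := hA
    refine split _ (hb.dom i) ?_ ?_
    · exact step _ Set.inter_subset_left (he.inter (hb.dom i)) _ _ _ _
        (.toB a j ha.symm Set.inter_subset_right hj hG)
    · exact step _ Set.sdiff_subset (he.sdiff (hb.dom i)) _ _ _ _
        (.fix (Or.inr (Or.inl ⟨⟨a, ha⟩, Set.disjoint_sdiff_left⟩)) (Or.inl hB))
  by_cases hB : colB <+: p
  · have hA' : Apart colA p := colAB.of_prefix List.prefix_rfl hB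
    obtain ⟨a, ha⟩ := hB
    refine split _ (hb.ran i) ?_ ?_
    · exact step _ Set.inter_subset_left (he.inter (hb.ran i)) _ _ _ _
        (.toA a j ha.symm Set.inter_subset_right hj hG)
    · exact step _ Set.sdiff_subset (he.sdiff (hb.ran i)) _ _ _ _
        (.fix (Or.inl hA') (Or.inr (Or.inl ⟨⟨a, ha⟩, Set.disjoint_sdiff_left⟩)))
  have short : ∀ c : List Bool, c.length = 2 → ¬ c <+: p → Apart c p := fun c hc h =>
    ⟨h, fun h' => by have := h'.length_le; omega⟩
  exact step e subset_rfl he _ _ _ _ (.fix (Or.inl (short _ rfl hA)) (Or.inl (short _ rfl hB)))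

end Setup

end Vale.Agent.P193.Calc
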