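import Vale.Agent.P193.Full.Calc.Maps.Term
import Vale.Agent.P193.Full.Calc.Rewrite

/-! Pieces with the same map on their set are equal. -/

namespace Vale.Agent.P193.Calc.Setup

variable {S : Type} {D : Setup S} {e : Set S} {p q : List Bool} {w w' : List D.ι}
variable (hb : D.Base)
include hb

theorem term_congr (hl : D.Loops) (h : D.Ok p q e w) (h' : D.Ok p q e w')
    (hg : ∀ s ∈ e, ∀ t, (s, t) ∈ D.wgraph w ↔ (s, t) ∈ D.wgraph w') :
    D.term p q e w = D.term p q e w' := by
  obtain ⟨hs, hsf⟩ := spare_spec h.free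
  rw [term, term,
    echain_congr hb hl h.df h.wdef h'.wdef hg (hs q (by simp)) (hsf.sub (by simp))]

end Vale.Agent.P193.Calc.Setup
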