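import Vale.Agent.P193.Full.Calc.BaseField
import Vale.Agent.P193.Full.Core.CovClosure

/-! Definitions of the map calculus: configurations of cones with room, transpositions of fields,
canonical chains and canonical terms. -/

namespace Vale.Agent.P193.Calc

open Classical

/-- Some cone is disjoint from all cones of the list. -/
def Free (L : List (List Bool)) : Prop := ∃ z, ∀ p ∈ L, Apart z p

/-- Disjoint cones leaving room. -/
def Room (L : List (List Bool)) : Prop := L.Pairwise Apart ∧ Free L

/-- A fresh cone for two cones. -/
noncomputable def spare (L : List (List Bool)) : List Bool :=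
  if h : Free L then h.choose ++ [false] else []

namespace Setup

variable {S : Type} (D : Setup S)

/-- The transposition of two cones over a definable set. -/
noncomputable def sw (e : Set S) (p q : List Bool) : D.P :=
  if hpq : Apart p q then D.h e (vswap hpq) else 1

/-- The chain with a fixed choice of the spare cone. -/
noncomputable def echain (p q : List Bool) (e : Set S) (w : List D.ι) : D.P :=
  D.chain p (spare [p, q]) q e w

/-- The canonical element of a piece: the cone `p` over `e` is carried by `w` and exchanged with
the cone `q`. The two cones may meet, the sets being then disjoint. -/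
noncomputable def term (p q : List Bool) (e : Set S) (w : List D.ι) : D.P :=
  D.sw e p (spare [p, q]) * D.echain (spare [p, q]) q e w * (D.sw e p (spare [p, q]))⁻¹

/-- A valid piece. -/
structure Ok (p q : List Bool) (e : Set S) (w : List D.ι) : Prop where
  df : D.Def e
  wdef : D.WDef w e
  free : Free [p, q]
  disj : Apart p q ∨ Disjoint e (D.wimg w e)

/-- The graph of a piece. -/
def tgraph (p q : List Bool) (e : Set S) (w : List D.ι) : Set (Sp S × Sp S) :=
  {x | ∃ f s t, s ∈ e ∧ (s, t) ∈ D.wgraph w ∧
    x.1 = (hv S).pre p (f, s) ∧ x.2 = (hv S).pre q (f, t)}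

/-- How an endpoint moves under a generator: new cone, new set, the word leading back and the
word leading there. -/
inductive EndMove (i : D.ι) (p : List Bool) (e : Set S) :
    List Bool → Set S → List D.ι → List D.ι → Prop
  | fix : (Apart colA p ∨ (colA <+: p ∧ Disjoint e (gdom (D.g i))) ∨ colB <+: p) →
      (Apart colB p ∨ (colB <+: p ∧ Disjoint e (gran (D.g i))) ∨ colA <+: p) →
      EndMove i p e p e [] []
  | toB (a : List Bool) (j : D.ι) : p = colA ++ a → e ⊆ gdom (D.g i) →
      D.g j = ginv (D.g i) → D.G j = D.φ (vswap colAB) * D.G i * (D.φ (vswap colAB))⁻¹ →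
      EndMove i p e (colB ++ a) (D.img i e) [j] [i]
  | toA (a : List Bool) (j : D.ι) : p = colB ++ a → e ⊆ gran (D.g i) →
      D.g j = ginv (D.g i) → D.G j = D.φ (vswap colAB) * D.G i * (D.φ (vswap colAB))⁻¹ →
      EndMove i p e (colA ++ a) (D.img j e) [i] [j]

end Setup

end Vale.Agent.P193.Calc
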