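import Vale.Agent.P193.Full.Calc.Maps.Cones

/-! Transpositions of fields and placed generators: equivariance and commutation. -/

namespace Vale.Agent.P193.Calc

open Classical
open scoped commutatorElement

namespace Setup

variable {S : Type} {D : Setup S} {i j : D.ι} {e f : Set S} {p q r : List Bool} {w : List D.ι}

/-! ### Definable sets and images -/

theorem def_univ : D.Def Set.univ := Ctx.definable_univ

theorem Def.inter (he : D.Def e) (hf : D.Def f) : D.Def (e ∩ f) := Ctx.definable_inter he hf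

theorem Def.sdiff (he : D.Def e) (hf : D.Def f) : D.Def (e \ f) := Ctx.definable_sdiff he hf

theorem Def.compl (he : D.Def e) : D.Def eᶜ := Ctx.definable_compl he

theorem Def.empty : D.Def (∅ : Set S) := by
  simpa using Def.sdiff (D := D) def_univ def_univ

theorem img_union (i : D.ι) (e f : Set S) : D.img i (e ∪ f) = D.img i e ∪ D.img i f := by
  ext t
  constructor
  · rintro ⟨s, h | h, hg⟩
    exacts [Or.inl ⟨s, h, hg⟩, Or.inr ⟨s, h, hg⟩]
  · rintro (⟨s, h, hg⟩ | ⟨s, h, hg⟩)
    exacts [⟨s, Or.inl h, hg⟩, ⟨s, Or.inr h, hg⟩]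

theorem img_mono (i : D.ι) (h : e ⊆ f) : D.img i e ⊆ D.img i f :=
  fun _ ⟨s, hs, hg⟩ => ⟨s, h hs, hg⟩

theorem img_subset_ran (i : D.ι) (e : Set S) : D.img i e ⊆ gran (D.g i) :=
  fun _ ⟨s, _, hg⟩ => ⟨s, hg⟩

theorem img_disjoint (i : D.ι) (h : Disjoint e f) : Disjoint (D.img i e) (D.img i f) :=
  Set.disjoint_left.2 fun _ ⟨_, hs, hg⟩ ⟨_, hs', hg'⟩ =>
    Set.disjoint_left.1 h hs ((D.g_pb i).2 _ _ _ hg hg' ▸ hs')

theorem img_empty (i : D.ι) : D.img i (∅ : Set S) = ∅ :=
  Set.eq_empty_of_forall_notMem fun _ ⟨_, hs, _⟩ => hs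

/-- The partner of a generator brings a subset of the domain back. -/
theorem img_partner (hj : D.g j = ginv (D.g i)) (he : e ⊆ gdom (D.g i)) :
    D.img j (D.img i e) = e := by
  ext s
  constructor
  · rintro ⟨t, ⟨s', hs', hg⟩, hg'⟩
    rw [hj] at hg'
    exact (D.g_pb i).2 _ _ _ (show (s, t) ∈ D.g i from hg') hg ▸ hs'
  · intro hs
    obtain ⟨t, ht⟩ := he hs
    refine ⟨t, ⟨s, hs, ht⟩, ?_⟩
    rw [hj]
    exact ht

theorem gdom_partner (hj : D.g j = ginv (D.g i)) : gdom (D.g j) = gran (D.g i) := by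
  rw [hj]; rfl

theorem gran_partner (hj : D.g j = ginv (D.g i)) : gran (D.g j) = gdom (D.g i) := by
  rw [hj]; rfl

theorem wimg_append (w₁ w₂ : List D.ι) (e : Set S) :
    D.wimg (w₁ ++ w₂) e = D.wimg w₂ (D.wimg w₁ e) := by
  induction w₁ generalizing e with
  | nil => rfl
  | cons i w₁ ih => exact ih _

theorem wdef_append (w₁ w₂ : List D.ι) (e : Set S) :
    D.WDef (w₁ ++ w₂) e ↔ D.WDef w₁ e ∧ D.WDef w₂ (D.wimg w₁ e) := by
  induction w₁ generalizing e with
  | nil => simp [WDef, wimg]
  | cons i w₁ ih =>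
    show e ⊆ gdom (D.g i) ∧ D.WDef (w₁ ++ w₂) (D.img i e) ↔ (_ ∧ _) ∧ _
    rw [ih, and_assoc]
    rfl

theorem wimg_mono (w : List D.ι) (h : e ⊆ f) : D.wimg w e ⊆ D.wimg w f := by
  induction w generalizing e f with
  | nil => exact h
  | cons i w ih => exact ih (img_mono i h)

theorem wimg_disjoint (w : List D.ι) (h : Disjoint e f) : Disjoint (D.wimg w e) (D.wimg w f) := by
  induction w generalizing e f with
  | nil => exact h
  | cons i w ih => exact ih (img_disjoint i h)

theorem wimg_union (w : List D.ι) (e f : Set S) :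
    D.wimg w (e ∪ f) = D.wimg w e ∪ D.wimg w f := by
  induction w generalizing e f with
  | nil => rfl
  | cons i w ih => show D.wimg w (D.img i (e ∪ f)) = _; rw [img_union, ih]; rfl

theorem wdef_mono (h : e ⊆ f) (hw : D.WDef w f) : D.WDef w e := by
  induction w generalizing e f with
  | nil => trivial
  | cons i w ih => exact ⟨h.trans hw.1, ih (img_mono i h) hw.2⟩

variable (hb : D.Base)
include hb

theorem def_img (he : D.Def e) (i : D.ι) : D.Def (D.img i e) :=
  def_img_term i (hb.ran i) (hb.img_def i) he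

theorem def_wimg (he : D.Def e) (w : List D.ι) : D.Def (D.wimg w e) := by
  induction w generalizing e with
  | nil => exact he
  | cons i w ih => exact ih (def_img hb he i)

theorem Ok.def_wimg {p q : List Bool} (h : D.Ok p q e w) : D.Def (D.wimg w e) :=
  Setup.def_wimg hb h.df w

/-! ### Fields -/

theorem h_union (he : D.Def e) (hf : D.Def f) (hd : Disjoint e f) (v : Vgrp S) :
    D.h (e ∪ f) v = D.h e v * D.h f v :=
  (D.ctx.field_union hb.empty he hf hd).2.2 v

theorem h_disjoint (he : D.Def e) (hf : D.Def f) (hd : Disjoint e f) (v v' : Vgrp S) :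
    Commute (D.h e v) (D.h f v') :=
  (D.ctx.field_union hb.empty he hf hd).2.1 v v'

theorem h_split (he : D.Def e) (hf : D.Def f) (v : Vgrp S) :
    D.h e v = D.h (e ∩ f) v * D.h (e \ f) v := by
  conv_lhs => rw [← Set.inter_union_sdiff e f]
  exact h_union hb (he.inter hf) (he.sdiff hf) Set.disjoint_sdiff_inter.symm v

theorem h_compl (he : D.Def e) (v : Vgrp S) : D.φ v = D.h e v * D.h eᶜ v := by
  rw [← h_univ hb.empty, ← Set.union_compl_self e]
  exact h_union hb he he.compl disjoint_compl_right v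

theorem h_empty (v : Vgrp S) : D.h ∅ v = 1 := by
  have e : D.h (∅ : Set S) = 1 := Ctx.field_empty (C := D.ctx) hb.empty
  rw [e]; rfl

/-- Fields of commuting elements commute. -/
theorem h_commute (he : D.Def e) (hf : D.Def f) {v v' : Vgrp S} (hv : Commute v v') :
    Commute (D.h e v) (D.h f v') := by
  have c1 : Commute (D.h (e ∩ f) v) (D.h (e ∩ f) v') := hv.map (D.h (e ∩ f))
  rw [h_split hb he hf v, h_split hb hf he v', Set.inter_comm f e]
  refine (c1.mul_right ?_).mul_left (Commute.mul_right ?_ ?_)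
  · exact h_disjoint hb (he.inter hf) (hf.sdiff he)
      (Set.disjoint_left.2 fun s h h' => h'.2 h.1) _ _
  · exact h_disjoint hb (he.sdiff hf) (he.inter hf)
      (Set.disjoint_left.2 fun s h h' => h.2 h'.2) _ _
  · exact h_disjoint hb (he.sdiff hf) (hf.sdiff he)
      (Set.disjoint_left.2 fun s h h' => h.2 h'.1) _ _

/-- Fields are equivariant. -/
theorem h_conj_phi (he : D.Def e) (k v : Vgrp S) :
    D.φ k * D.h e v * (D.φ k)⁻¹ = D.h e (k * v * k⁻¹) := by
  have c : Commute (D.h eᶜ k) (D.h e v) := h_disjoint hb he.compl he disjoint_compl_left _ _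
  rw [h_compl hb he k, map_mul, map_mul, map_inv]
  calc D.h e k * D.h eᶜ k * D.h e v * (D.h e k * D.h eᶜ k)⁻¹
      = D.h e k * (D.h eᶜ k * D.h e v) * (D.h eᶜ k)⁻¹ * (D.h e k)⁻¹ := by group
    _ = _ := by rw [c.eq]; group

/-! ### Transpositions -/

omit hb in
theorem sw_eq (h : Apart p q) : D.sw e p q = D.h e (vswap h) := dif_pos h

omit hb in
theorem sw_symm (e : Set S) (p q : List Bool) : D.sw e p q = D.sw e q p := by
  by_cases h : Apart p q
  · rw [sw_eq h, sw_eq h.symm, vswap_symm]
  · rw [sw, sw, dif_neg h, dif_neg fun h' => h h'.symm]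

omit hb in
theorem sw_inv (e : Set S) (p q : List Bool) : (D.sw e p q)⁻¹ = D.sw e p q := by
  by_cases h : Apart p q
  · rw [sw_eq h, ← map_inv, vswap_inv]
  · rw [sw, dif_neg h, inv_one]

omit hb in
theorem sw_sq (e : Set S) (p q : List Bool) : D.sw e p q * D.sw e p q = 1 := by
  conv_lhs => arg 2; rw [← sw_inv]
  exact mul_inv_cancel _

theorem sw_univ (h : Apart p q) : D.sw Set.univ p q = D.φ (vswap h) := by
  rw [sw_eq h, h_univ hb.empty]

theorem sw_empty (p q : List Bool) : D.sw ∅ p q = 1 := by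
  by_cases h : Apart p q
  · rw [sw_eq h, h_empty hb]
  · rw [sw, dif_neg h]

theorem sw_union (he : D.Def e) (hf : D.Def f) (hd : Disjoint e f) (p q : List Bool) :
    D.sw (e ∪ f) p q = D.sw e p q * D.sw f p q := by
  by_cases h : Apart p q
  · rw [sw_eq h, sw_eq h, sw_eq h, h_union hb he hf hd]
  · simp [sw, dif_neg h]

theorem sw_conj (he : D.Def e) {v : Vgrp S} {p' q' : List Bool} (h : Apart p q)
    (h' : Apart p' q') (hp : MapsCone p p' v) (hq : MapsCone q q' v) :
    D.φ v * D.sw e p q * (D.φ v)⁻¹ = D.sw e p' q' := by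
  rw [sw_eq h, sw_eq h', h_conj_phi hb he, vswap_conj h h' hp hq]

omit hb in
theorem sw_halve (h : Apart p q) :
    D.sw e p q = D.sw e (p ++ [false]) (q ++ [false]) * D.sw e (p ++ [true]) (q ++ [true]) := by
  rw [sw_eq h, sw_eq (h.append _ _), sw_eq (h.append _ _), ← map_mul, ← vswap_split h]

omit hb in
/-- A transposition moves one cone of another one. -/
theorem sw_move {a b c : List Bool} (hab : Apart a b) (hac : Apart a c) (hcb : Apart c b) :
    D.sw e a c * D.sw e a b * D.sw e a c = D.sw e c b := by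
  conv_lhs => arg 2; rw [← sw_inv]
  rw [sw_eq hab, sw_eq hac, sw_eq hcb, vswap_move hab hac hcb, map_mul, map_mul, map_inv]

theorem sw_commute_disjoint (he : D.Def e) (hf : D.Def f) (hd : Disjoint e f) (a b : List Bool)
    (v : Vgrp S) : Commute (D.sw e a b) (D.h f v) := by
  by_cases h : Apart a b
  · rw [sw_eq h]; exact h_disjoint hb he hf hd _ _
  · rw [sw, dif_neg h]; exact Commute.one_left _

theorem sw_commute (he : D.Def e) (hf : D.Def f) {a b : List Bool} (h : Apart p q)
    (h' : Apart a b) (hpa : Apart p a) (hpb : Apart p b) (hqa : Apart q a) (hqb : Apart q b) :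
    Commute (D.sw e p q) (D.sw f a b) := by
  rw [sw_eq h, sw_eq h']
  exact h_commute hb he hf
    (vswap_commute h' (fixCone_vswap h hpa.symm hqa.symm) (fixCone_vswap h hpb.symm hqb.symm))

end Setup

end Vale.Agent.P193.Calc
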