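import Vale.Agent.P193.Full.Calc.Maps.Action
import Vale.Agent.P193.Full.Calc.Maps.Congr
import Vale.Agent.P193.Full.Calc.Maps.Central

/-! The calculus of canonical elements of pieces, assembled: the kernel is central. -/

namespace Vale.Agent.P193.Calc.Setup

variable {S : Type} {D : Setup S}

/-- The facts on canonical elements of pieces. -/
theorem termFacts (hb : D.Base) (hl : D.Loops) : D.TermFacts where
  empty _ _ _ hf := term_empty hb hf
  vswap _ _ h hf := term_vswap hb h hf
  union _ _ _ _ _ h h1 h2 hd := term_union hb h h1 h2 hd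
  congr _ _ _ _ _ h h' hg := term_congr hb hl h h' hg
  conj_phi _ _ _ _ _ _ _ hp hq h h' := conj_phi_term hb hp hq h h'.free
  conj_gen _ _ _ _ _ _ _ _ _ _ _ _ _ h hf m m' h' := conj_gen_term hb h hf m m' h'

/-- The kernel of the map calculus is central. -/
theorem kernelCentral (hb : D.Base) (hl : D.Loops) (hg : D.Generated) : D.KernelCentral :=
  kernelCentral_of_facts hb (termFacts hb hl) hg

end Vale.Agent.P193.Calc.Setup
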