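import Vale.Agent.P193.Full.Calc.Maps.Fields

/-! Placed generators: independence of the placing element, commutation, and the covariance of
transpositions along two parallel placed generators. -/

namespace Vale.Agent.P193.Calc

open Classical
open scoped commutatorElement

theorem free_cols : Free [colA, colB] :=
  ⟨[true], by
    intro p hp
    rcases List.mem_cons.1 hp with rfl | hp
    · exact apart_heads (by decide) _ _
    · rw [List.mem_singleton.1 hp]; exact apart_heads (by decide) _ _⟩

theorem colA0B0 : Apart (colA ++ [false]) (colB ++ [false]) := colAB.append _ _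

theorem room_pair {p q : List Bool} (h : Apart p q) (hf : Free [p, q]) : Room [p, q] :=
  ⟨by simp [h], hf⟩

theorem room_four {a b c d : List Bool} (hab : Apart a b) (hac : Apart a c) (had : Apart a d)
    (hbc : Apart b c) (hbd : Apart b d) (hcd : Apart c d) (hf : Free [a, b, c, d]) :
    Room [a, b, c, d] :=
  ⟨by simp [hab, hac, had, hbc, hbd, hcd], hf⟩

variable {S : Type}

theorem exists_place {p q : List Bool} (h : Apart p q) (hf : Free [p, q]) :
    ∃ k : Vgrp S, MapsCone colA p k ∧ MapsCone colB q k := by
  obtain ⟨k, hk⟩ := exists_maps (S := S) (ps := [colA, colB]) (qs := [p, q]) rfl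
    (room_pair colAB free_cols) (room_pair h hf)
  exact ⟨k, hk 0 (by simp), hk 1 (by simp)⟩

theorem exists_four {a b c d a' b' c' d' : List Bool} (h : Room [a, b, c, d])
    (h' : Room [a', b', c', d']) : ∃ k : Vgrp S,
      MapsCone a a' k ∧ MapsCone b b' k ∧ MapsCone c c' k ∧ MapsCone d d' k := by
  obtain ⟨k, hk⟩ := exists_maps (S := S) (ps := [a, b, c, d]) (qs := [a', b', c', d']) rfl h h'
  exact ⟨k, hk 0 (by simp), hk 1 (by simp), hk 2 (by simp), hk 3 (by simp)⟩

theorem FixCone.append {p : List Bool} {v : Vgrp S} (h : FixCone p v) (r : List Bool) :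
    FixCone (p ++ r) v := MapsCone.append h r

/-- Elements supported inside the first colour generated by swaps. -/
noncomputable def insideA (S : Type) : Subgroup (Vgrp S) :=
  Subgroup.closure {v | ∃ a b, ∃ h : Apart (colA ++ a) (colA ++ b), v = vswap h}

theorem inCone_insideA {v : Vgrp S} (hv : v ∈ insideA S) : InCone colA v := by
  induction hv using Subgroup.closure_induction with
  | mem x hx =>
    obtain ⟨a, b, h, rfl⟩ := hx
    intro y hy
    refine vswap_fix h (fun z e => hy ⟨(hv S).pre a z, ?_⟩) (fun z e => hy ⟨(hv S).pre b z, ?_⟩) <;>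
      rw [e, pre_append]
  | one => intro y _; rfl
  | mul x y _ _ hx hy =>
    intro z hz
    rw [Subgroup.coe_mul, Equiv.Perm.mul_apply, hy z hz, hx z hz]
  | inv x _ hx =>
    intro z hz
    conv_lhs => rw [← hx z hz]
    exact vgrp_inv_apply' x z

theorem selfComm_insideA : SelfComm (insideA S : Set (Vgrp S)) := by
  intro v hv
  induction hv using Subgroup.closure_induction with
  | one => exact one_mem _
  | mul x y _ _ hx hy => exact mul_mem hx hy
  | inv x _ hx => exact inv_mem hx
  | mem x hx =>
    obtain ⟨a, b, h, rfl⟩ := hx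
    have h0 := h.append [false] [false]
    have h1 := h.append [true] [true]
    have ha := apart_bits (colA ++ a)
    have hb := apart_bits (colA ++ b)
    refine Subgroup.subset_closure ⟨vswap h0, Subgroup.subset_closure ?_,
      vswap ha * vswap hb, mul_mem (Subgroup.subset_closure ?_) (Subgroup.subset_closure ?_), ?_⟩
    · exact ⟨a ++ [false], b ++ [false], by simpa [List.append_assoc] using h0,
        by congr 1 <;> simp [List.append_assoc]⟩
    · exact ⟨a ++ [false], a ++ [true], by simpa [List.append_assoc] using ha,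
        by congr 1 <;> simp [List.append_assoc]⟩
    · exact ⟨b ++ [false], b ++ [true], by simpa [List.append_assoc] using hb,
        by congr 1 <;> simp [List.append_assoc]⟩
    · have e : vswap (S := S) ha * vswap hb * vswap h0 * (vswap ha * vswap hb)⁻¹ = vswap h1 := by
        refine vswap_conj h0 h1 ?_ ?_
        · exact MapsCone.trans (fixCone_vswap hb (h.append _ _) (h.append _ _)) (mapsCone_vswap ha)
        · exact (mapsCone_vswap hb).trans (fixCone_vswap ha (h.symm.append _ _) (h.symm.append _ _))
      rw [commutatorElement_def, mul_assoc (vswap h0), mul_assoc (vswap h0), vswap_inv h0, e,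
        ← vswap_split]

namespace Setup

variable {D : Setup S} {i j : D.ι} {e : Set S} {p q r : List Bool}
variable (hb : D.Base)
include hb

theorem G_inv (i : D.ι) : (D.G i)⁻¹ = D.G i := inv_eq_of_mul_eq_one_right (hb.invol i)

/-- The placing element does not matter. -/
theorem place_eq {k : Vgrp S} (hp : MapsCone colA p k) (hq : MapsCone colB q k) (i : D.ι) :
    D.place i p q = D.φ k * D.G i * (D.φ k)⁻¹ := by
  have hk : ∃ k : Vgrp S, MapsCone colA p k ∧ MapsCone colB q k := ⟨k, hp, hq⟩
  rw [place, dif_pos hk]
  have hc := hb.comm_off i Set.univ def_univ (k⁻¹ * hk.choose) (hk.choose_spec.1.trans hp.inv)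
    (hk.choose_spec.2.trans hq.inv)
  rw [h_univ hb.empty, map_mul, map_inv] at hc
  calc D.φ hk.choose * D.G i * (D.φ hk.choose)⁻¹
      = D.φ k * ((D.φ k)⁻¹ * D.φ hk.choose * D.G i) * (D.φ hk.choose)⁻¹ := by group
    _ = _ := by rw [← hc.eq]; group

theorem place_cols (i : D.ι) : D.place i colA colB = D.G i := by
  rw [place_eq hb (mapsCone_one _) (mapsCone_one _)]; simp

theorem place_inv (i : D.ι) (p q : List Bool) : (D.place i p q)⁻¹ = D.place i p q := by
  rw [place]
  split_ifs with h
  · rw [mul_inv_rev, mul_inv_rev, inv_inv, G_inv hb, mul_assoc]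
  · exact inv_one

theorem place_sq (i : D.ι) (p q : List Bool) : D.place i p q * D.place i p q = 1 := by
  conv_lhs => arg 2; rw [← place_inv hb]
  exact mul_inv_cancel _

theorem place_conj {v : Vgrp S} {p' q' : List Bool} (h : Apart p q) (hf : Free [p, q])
    (hp : MapsCone p p' v) (hq : MapsCone q q' v) (i : D.ι) :
    D.φ v * D.place i p q * (D.φ v)⁻¹ = D.place i p' q' := by
  obtain ⟨k, hka, hkb⟩ := exists_place (S := S) h hf
  rw [place_eq hb hka hkb, place_eq hb (hka.trans hp) (hkb.trans hq), map_mul]
  group

/-- The partner generator placed backwards. -/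
theorem place_partner (hj : D.G j = D.φ (vswap colAB) * D.G i * (D.φ (vswap colAB))⁻¹)
    (h : Apart p q) (hf : Free [p, q]) : D.place j q p = D.place i p q := by
  obtain ⟨k, hka, hkb⟩ := exists_place (S := S) h hf
  rw [place_eq hb (p := q) (q := p) ((mapsCone_vswap colAB).trans hkb)
    ((mapsCone_vswap' colAB).trans hka), place_eq hb hka hkb, hj, map_mul]
  have e : D.φ (vswap colAB) * D.φ (vswap colAB) = 1 := by
    rw [← map_mul, vswap_mul_self, map_one]
  rw [inv_eq_of_mul_eq_one_right e, mul_inv_rev, inv_eq_of_mul_eq_one_right e]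
  calc _ = D.φ k * (D.φ (vswap colAB) * D.φ (vswap colAB)) * D.G i *
        (D.φ (vswap colAB) * D.φ (vswap colAB)) * (D.φ k)⁻¹ := by group
    _ = _ := by rw [e]; group

theorem place_halve (h : Apart p q) (hf : Free [p, q]) (i : D.ι) :
    D.place i p q =
      D.place i (p ++ [false]) (q ++ [false]) * D.place i (p ++ [true]) (q ++ [true]) := by
  obtain ⟨k, hka, hkb⟩ := exists_place (S := S) h hf
  have hfr : ∀ c : Bool, Free [colA ++ [c], colB ++ [c]] := fun c => free_cols.mono (by simp)
  obtain ⟨k₀, h0a, h0b⟩ := exists_place (S := S) (colAB.append [false] [false]) (hfr false)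
  obtain ⟨k₁, h1a, h1b⟩ := exists_place (S := S) (colAB.append [true] [true]) (hfr true)
  rw [place_eq hb hka hkb, hb.halve i k₀ k₁ h0a h0b h1a h1b,
    place_eq hb (h0a.trans (hka.append _)) (h0b.trans (hkb.append _)),
    place_eq hb (h1a.trans (hka.append _)) (h1b.trans (hkb.append _)), map_mul, map_mul]
  group

/-- Commutation with a field fixing both cones. -/
theorem place_comm_off (h : Apart p q) (hf : Free [p, q]) (he : D.Def e) {v : Vgrp S}
    (hp : FixCone p v) (hq : FixCone q v) (i : D.ι) : Commute (D.place i p q) (D.h e v) := by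
  obtain ⟨k, hka, hkb⟩ := exists_place (S := S) h hf
  have hc := hb.comm_off i e he (k⁻¹ * v * k) (hka.trans (MapsCone.trans hp hka.inv) :)
    (hkb.trans (MapsCone.trans hq hkb.inv) :)
  have := hc.map (MulAut.conj (D.φ k)).toMonoidHom
  simp only [MulEquiv.coe_toMonoidHom, MulAut.conj_apply] at this
  rwa [h_conj_phi hb he, show k * (k⁻¹ * v * k) * k⁻¹ = v by group, ← place_eq hb hka hkb] at this

theorem place_comm_dom (h : Apart p q) (hf : Free [p, q]) (he : D.Def e)
    (hd : Disjoint e (gdom (D.g i))) {v : Vgrp S} (hq : FixCone q v) :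
    Commute (D.place i p q) (D.h e v) := by
  obtain ⟨k, hka, hkb⟩ := exists_place (S := S) h hf
  have hc := hb.comm_dom i e he hd (k⁻¹ * v * k) (hkb.trans (MapsCone.trans hq hkb.inv) :)
  have := hc.map (MulAut.conj (D.φ k)).toMonoidHom
  simp only [MulEquiv.coe_toMonoidHom, MulAut.conj_apply] at this
  rwa [h_conj_phi hb he, show k * (k⁻¹ * v * k) * k⁻¹ = v by group, ← place_eq hb hka hkb] at this

theorem place_comm_ran (h : Apart p q) (hf : Free [p, q]) (he : D.Def e)
    (hd : Disjoint e (gran (D.g i))) {v : Vgrp S} (hp : FixCone p v) :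
    Commute (D.place i p q) (D.h e v) := by
  obtain ⟨k, hka, hkb⟩ := exists_place (S := S) h hf
  have hc := hb.comm_ran i e he hd (k⁻¹ * v * k) (hka.trans (MapsCone.trans hp hka.inv) :)
  have := hc.map (MulAut.conj (D.φ k)).toMonoidHom
  simp only [MulEquiv.coe_toMonoidHom, MulAut.conj_apply] at this
  rwa [h_conj_phi hb he, show k * (k⁻¹ * v * k) * k⁻¹ = v by group, ← place_eq hb hka hkb] at this

theorem place_sw_comm (he : D.Def e) {a b : List Bool} (h : Apart p q) (hf : Free [p, q])
    (hab : Apart a b) (hpa : Apart p a) (hpb : Apart p b) (hqa : Apart q a) (hqb : Apart q b)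
    (i : D.ι) : Commute (D.place i p q) (D.sw e a b) := by
  rw [sw_eq hab]
  exact place_comm_off hb h hf he (fixCone_vswap hab hpa hpb) (fixCone_vswap hab hqa hqb) i

/-- Generators placed at four cones with room commute. -/
theorem place_place_comm {a b c d : List Bool} (h : Room [a, b, c, d]) (i j : D.ι) :
    Commute (D.place i a b) (D.place j c d) := by
  have hr : Room [[false, false, false], [false, false, true], [false, true, false],
      [false, true, true]] := by
    refine ⟨by simp [Apart], [true], ?_⟩
    intro p hp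
    simp only [List.mem_cons, List.not_mem_nil, or_false] at hp
    rcases hp with rfl | rfl | rfl | rfl <;> exact apart_heads (by decide) _ _
  have hpw := h.1
  simp only [List.pairwise_cons, List.mem_cons, List.not_mem_nil, or_false, forall_eq_or_imp,
    forall_eq, List.Pairwise.nil, and_true] at hpw
  obtain ⟨K₀, ha, hb', hc, hd⟩ := exists_four (S := S) hr h
  obtain ⟨k₀, h0a, h0b⟩ := exists_place (S := S) (p := [false, false, false])
    (q := [false, false, true]) (by simp [Apart]) ⟨[true], by simp [Apart]⟩
  obtain ⟨k₁, h1a, h1b⟩ := exists_place (S := S) (p := [false, true, false])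
    (q := [false, true, true]) (by simp [Apart]) ⟨[true], by simp [Apart]⟩
  have := (hb.disj i j k₀ k₁ h0a h0b h1a h1b).map (MulAut.conj (D.φ K₀)).toMonoidHom
  rw [place_eq hb (h0a.trans ha) (h0b.trans hb'), place_eq hb (h1a.trans hc) (h1b.trans hd)]
  simpa [MulAut.conj_apply, map_mul, mul_assoc] using this

/-- Covariance for a swap inside the first colour. -/
theorem cov_inside (he : D.Def e) (hei : e ⊆ gdom (D.g i)) {a b : List Bool} (hab : Apart a b) :
    D.G i * D.sw e (colA ++ a) (colA ++ b) * (D.G i)⁻¹ =
      D.sw (D.img i e) (colB ++ a) (colB ++ b) := by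
  have hA : Apart (colA ++ a) (colA ++ b) := apart_append_left hab
  have hB : Apart (colB ++ a) (colB ++ b) := apart_append_left hab
  let τ : Vgrp S →* Vgrp S := (MulAut.conj (vswap colAB)).toMonoidHom
  have hτ : ∀ v, τ v = vswap colAB * v * vswap colAB := fun v => by
    show vswap colAB * v * (vswap colAB)⁻¹ = _
    rw [vswap_inv]
  have := carries_of_base hb.empty (x := D.G i) selfComm_insideA τ i (hb.dom i) (hb.ran i)
    (hb.img_def i) (fun v hv => by rw [hτ]; exact hb.cov_dom i v (inCone_insideA hv))
    (fun k v hv => by rw [hτ]; exact hb.cov i k v (inCone_insideA hv)) he (vswap hA)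
    (Subgroup.subset_closure ⟨a, b, hA, rfl⟩)
  rw [Set.inter_eq_self_of_subset_left hei, hτ] at this
  rw [sw_eq hA, sw_eq hB, this]
  congr 1
  have e2 := vswap_conj hA hB ((mapsCone_vswap (S := S) colAB).append a)
    ((mapsCone_vswap (S := S) colAB).append b)
  rwa [vswap_inv] at e2

/-- Two parallel placed generators carry a transposition. -/
theorem cov2 {p' t t' : List Bool} (h : Room [p, p', t, t']) (he : D.Def e)
    (hei : e ⊆ gdom (D.g i)) :
    D.place i p t * D.place i p' t' * D.sw e p p' * (D.place i p t * D.place i p' t')⁻¹ =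
      D.sw (D.img i e) t t' := by
  have hr : Room [colA ++ [false], colA ++ [true], colB ++ [false], colB ++ [true]] :=
    room_four (apart_bits _) (colAB.append _ _) (colAB.append _ _) (colAB.append _ _)
      (colAB.append _ _) (apart_bits _) (free_cols.mono (by simp))
  obtain ⟨k, h1, h2, h3, h4⟩ := exists_four (S := S) hr h
  have hpw := h.1
  simp only [List.pairwise_cons, List.mem_cons, List.not_mem_nil, or_false, forall_eq_or_imp,
    forall_eq, List.Pairwise.nil, and_true] at hpw
  obtain ⟨⟨pp, pt, pt'⟩, ⟨p't, p't'⟩, tt, -⟩ := hpw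
  have key := cov_inside hb (i := i) he hei (a := [false]) (b := [true])
    (apart_heads (by decide) _ _)
  rw [← place_cols hb i, place_halve hb colAB free_cols] at key
  have e0 := place_conj hb (v := k) (colAB.append [false] [false]) (free_cols.mono (by simp)) h1 h3 i
  have e1 := place_conj hb (v := k) (colAB.append [true] [true]) (free_cols.mono (by simp)) h2 h4 i
  have e2 := sw_conj hb (v := k) he (apart_bits colA) pp h1 h2
  have e3 := sw_conj hb (v := k) (def_img hb he i) (apart_bits colB) tt h3 h4
  rw [← e0, ← e1, ← e2, ← e3, ← key]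
  group

end Setup

end Vale.Agent.P193.Calc
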