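import Vale.Agent.P193.Full.Calc.Maps.Chain

/-! The canonical elements of pieces: independence of the spare cone, additivity and
equivariance. The two cones of a piece may overlap when the two sets are disjoint. -/

namespace Vale.Agent.P193.Calc

open Classical

variable {S : Type}

namespace Setup

variable {D : Setup S} {e e' e₁ e₂ : Set S} {p q r p' q' : List Bool}
  {w w' : List D.ι}

theorem Ok.sub (h : D.Ok p q e w) (he : D.Def e') (hs : e' ⊆ e) : D.Ok p q e' w :=
  ⟨he, wdef_mono hs h.wdef, h.free, h.disj.imp_right fun hd =>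
    hd.mono hs (wimg_mono w hs)⟩

variable (hb : D.Base)
include hb

/-- The spare cone of a piece does not matter. -/
theorem term_spare (h : D.Ok p q e w) (hrp : Apart r p) (hrq : Apart r q)
    (hf : Free [r, p, q]) :
    D.term p q e w = D.sw e p r * D.echain r q e w * D.sw e p r := by
  obtain ⟨hs, hsf⟩ := spare_spec h.free
  rw [term, sw_inv]
  refine free_connect (L := [p, q])
    (F := fun r => D.sw e p r * D.echain r q e w * D.sw e p r) (fun a b hab ha hb' hfr => ?_)
    hs (by simp [hrp, hrq]) hsf hf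
  simp only [List.mem_cons, List.not_mem_nil, or_false, forall_eq_or_imp, forall_eq] at ha hb'
  obtain ⟨hap, haq⟩ := ha
  obtain ⟨hbp, hbq⟩ := hb'
  have hc : Commute (D.echain a q e w) (D.sw e p b) := by
    rcases h.disj with hpq | hd
    · exact echain_comm_sw hb haq hbp.symm hap hab hpq.symm hbq.symm
        (hfr.sub (by simp)) h.df h.wdef h.df
    · exact echain_comm_sw_tgt hb haq hbp.symm hap hab (hfr.sub (by simp)) h.df h.wdef h.df hd
  have hm : D.sw e p b * D.sw e a b = D.sw e p a * D.sw e p b := by
    have := sw_move (D := D) (e := e) hab.symm hbp hap.symm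
    rw [sw_symm e b p, sw_symm e b a] at this
    rw [← this, mul_assoc, sw_sq, mul_one]
  have hm' : D.sw e a b * D.sw e p b = D.sw e p b * D.sw e p a := by
    have := congrArg (·⁻¹) hm
    simpa [mul_inv_rev, sw_inv] using this
  show D.sw e p a * D.echain a q e w * D.sw e p a =
    D.sw e p b * D.echain b q e w * D.sw e p b
  rw [← echain_src hb haq hab.symm hbq (hfr.sub (by simp)) h.df h.wdef]
  calc D.sw e p a * D.echain a q e w * D.sw e p a
      = D.sw e p a * (D.echain a q e w * (D.sw e p b * D.sw e p b)) * D.sw e p a := by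
        rw [sw_sq, mul_one]
    _ = (D.sw e p a * D.sw e p b) * D.echain a q e w * (D.sw e p b * D.sw e p a) := by
        rw [← mul_assoc (D.echain a q e w), hc.eq]; group
    _ = _ := by rw [← hm, ← hm']; group

theorem term_eq_echain (h : D.Ok p q e w) (hpq : Apart p q) :
    D.term p q e w = D.echain p q e w := by
  obtain ⟨hs, hsf⟩ := spare_spec h.free
  have hsp := hs p List.mem_cons_self
  have hsq := hs q (by simp)
  rw [term, sw_inv, sw_symm e p, echain_src hb hsq hsp.symm hpq (hsf.sub (by simp)) h.df h.wdef]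

theorem term_empty (hf : Free [p, q]) : D.term p q ∅ w = 1 := by
  obtain ⟨hs, hsf⟩ := spare_spec hf
  rw [term, sw_empty hb, echain_empty hb]
  simp

theorem term_vswap (h : Apart p q) (hf : Free [p, q]) :
    D.term p q Set.univ [] = D.φ (vswap h) := by
  rw [term_eq_echain hb (w := ([] : List D.ι))
    ⟨def_univ, trivial, hf, Or.inl h⟩ h, echain_nil, sw_univ hb h]

theorem term_union (h : D.Ok p q (e₁ ∪ e₂) w) (h1 : D.Def e₁) (h2 : D.Def e₂)
    (hd : Disjoint e₁ e₂) :
    D.term p q (e₁ ∪ e₂) w = D.term p q e₁ w * D.term p q e₂ w := by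
  have o1 := h.sub h1 Set.subset_union_left
  have o2 := h.sub h2 Set.subset_union_right
  rcases h.disj with hpq | hdd
  · rw [term_eq_echain hb h hpq, term_eq_echain hb o1 hpq, term_eq_echain hb o2 hpq,
      echain_union hb h1 h2 hd]
  · rw [wimg_union, Set.disjoint_union_left, Set.disjoint_union_right,
      Set.disjoint_union_right] at hdd
    obtain ⟨hs, hsf⟩ := spare_spec h.free
    have hp := hs p List.mem_cons_self
    have hq := hs q (by simp)
    rw [term, term, term, sw_inv, sw_inv, sw_inv, sw_union hb h1 h2 hd,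
      echain_union hb h1 h2 hd]
    set r := spare [p, q]
    have hfr : Free [r, q, p, r] := hsf.sub (by simp)
    have c12 : Commute (D.echain r q e₁ w) (D.sw e₂ p r) :=
      echain_comm_sw_disj hb hq hfr h1 o1.wdef h2 hd.symm hdd.2.1
    have c21 : Commute (D.echain r q e₂ w) (D.sw e₁ p r) :=
      echain_comm_sw_disj hb hq hfr h2 o2.wdef h1 hd hdd.1.2
    have cA : Commute (D.sw e₁ p r) (D.sw e₂ p r) := by
      rw [sw_eq hp.symm, sw_eq hp.symm]; exact h_disjoint hb h1 h2 hd _ _
    calc D.sw e₁ p r * D.sw e₂ p r * (D.echain r q e₁ w * D.echain r q e₂ w) *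
          (D.sw e₁ p r * D.sw e₂ p r)
        = D.sw e₁ p r * (D.sw e₂ p r * D.echain r q e₁ w) * (D.echain r q e₂ w * D.sw e₁ p r) *
            D.sw e₂ p r := by group
      _ = D.sw e₁ p r * D.echain r q e₁ w * (D.sw e₂ p r * D.sw e₁ p r) * D.echain r q e₂ w *
            D.sw e₂ p r := by rw [← c12.eq, c21.eq]; group
      _ = _ := by rw [← cA.eq]; group

/-- Equivariance of pieces. -/
theorem conj_phi_term {v : Vgrp S} (hp : MapsCone p p' v) (hq : MapsCone q q' v)
    (h : D.Ok p q e w) (hf' : Free [p', q']) :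
    D.φ v * D.term p q e w * (D.φ v)⁻¹ = D.term p' q' e w := by
  by_cases hS : Nonempty S
  · obtain ⟨r, r', hr, hrp, hrq, hfo, a1, a2, hfr⟩ := exists_spare_image hp hq h.free hf'
    have ok' : D.Ok p' q' e w :=
      ⟨h.df, h.wdef, hf', h.disj.imp_left fun hpq => hp.apart hpq hq⟩
    rw [term_spare hb h hrp hrq hfo, term_spare hb ok' a1 a2 hfr,
      ← echain_conj hb hrq a2 (hfo.sub (by simp)) (hfr.sub (by simp)) hr hq h.df h.wdef,
      ← sw_conj hb h.df hrp.symm a1.symm hp hr]
    group
  · have he : e = ∅ := Set.eq_empty_of_forall_notMem fun x _ => hS ⟨x⟩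
    subst he
    rw [term_empty hb h.free, term_empty hb hf']
    simp

end Setup

end Vale.Agent.P193.Calc
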